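import Crest.Agent.X261.Uen.Wdg

/-!
X261 / Uen / Main (helper80): an equivariant holomorphic map to `ℂ^q` with lattice periods is a
generic submersion onto `ℂ^q` when there is no Bogomolov sheaf.
-/

set_option autoImplicit false
set_option linter.unusedSectionVars false

open Set Filter Topology Metric Module
open scoped Matrix Pointwise

noncomputable section

namespace Crest.Agent.X261.Uen

open Crest.Agent.R281.Thn_280 Crest.Agent.R281.ThnM_280
open Crest.Agent.R275.Geo Crest.Agent.R275.Core144 Crest.Agent.R273.Fock_243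
open Crest.Agent.R273.HolF_578 (Om)
open Crest.Agent.X261.Bog (Par)
open Crest.Agent.R273.UCov_914 Crest.Agent.R273.SteinC_794

variable {n : ℕ} {X : Type} [TopologicalSpace X] {A : Atl n X} {G : Type} [Group G]
  {W : Type} [NormedAddCommGroup W] [NormedSpace ℂ W] [FiniteDimensional ℂ W]

/-- the consequence of "no Bogomolov sheaf" which is used -/
def NoForms (D : MonD A G) (H : Subgroup G) : Prop :=
  ∀ p : ℕ, 1 ≤ p → ∀ τ : Fin (p + 1) → (D.atl G).ι → D.cov G → FI n → ℂ,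
    (∀ k, τ k ∈ Om (D.atl G) p) →
    (∀ k, ∀ h ∈ H, ∀ i v x, τ k (i, v * h⁻¹) (D.pt i (v * h⁻¹) x) = τ k (i, v) (D.pt i v x)) →
    (∀ k l i v w, ∀ x ∈ (A.e i).source, Par (τ k (i, v) (D.pt i v x)) (τ l (i, w) (D.pt i w x))) →
    ∀ (c : (D.atl G).ι) (e₀ : D.cov G) (z : Fin p → D.cov G → ℂ), e₀ ∈ ((D.atl G).e c).source →
      τ 0 c e₀ ≠ 0 → (∀ᶠ e in 𝓝 e₀, ∀ k, τ k.succ c e = z k e • τ 0 c e) →
      (LinearIndependent ℂ fun k => df (D.atl G) c (z k) e₀) → False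

/-- equivariant holomorphic maps with lattice periods -/
structure Eqv (D : MonD A G) (H : Subgroup G) (a : D.cov G → W) (L : G → W →L[ℂ] W)
    (lam : G → W) : Prop where
  hol : HolV (D.atl G) a
  eqv : ∀ g e, a (g • e) = L g (a e) + lam g
  LH : ∀ g ∈ H, L g = 1
  disc : ∀ R : ℝ, {l | (∃ h ∈ H, lam h = l) ∧ ‖l‖ ≤ R}.Finite
  span : ∀ l : W →L[ℝ] ℝ, (∀ h ∈ H, l (lam h) = 0) → l = 0

variable {D : MonD A G} {H : Subgroup G} {a : D.cov G → W} {L : G → W →L[ℂ] W} {lam : G → W}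

theorem dF_deck (h : HolV (D.atl G) a) {g : G} {T : W →L[ℂ] W} {c : W}
    (hg : ∀ e, a (g • e) = T (a e) + c) (v : G) {i : A.ι} {x : X} (hx : x ∈ (A.e i).source) :
    dF (D.atl G) (i, v * g⁻¹) a (D.pt i (v * g⁻¹) x) =
      T.comp (dF (D.atl G) (i, v) a (D.pt i v x)) := by
  rw [← h.dF_clm T (D.pt_mem_source (p := (i, v)) hx)]
  have h1 : (fun z => a (((D.atl G).e (i, v * g⁻¹)).symm z)) =
      fun z => T (a (((D.atl G).e (i, v)).symm z)) + c := by
    funext z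
    rw [← hg]
    exact congrArg a (D.deck_pt g i v _).symm
  unfold dF
  rw [h1, fderiv_add_const]
  rfl

theorem tg_deck (h : HolV (D.atl G) a) {g : G} {T : W →L[ℂ] W} {c : W}
    (hg : ∀ e, a (g • e) = T (a e) + c) (e : D.cov G) :
    Tg (D.atl G) a (g • e) = (Tg (D.atl G) a e).map (T : W →ₗ[ℂ] W) := by
  obtain ⟨i, hi⟩ := A.cover (D.pr e)
  rw [← D.pt_co hi, D.deck_pt, h.tg_eq (D.pt_mem_source (p := (i, D.co i e)) hi),
    h.tg_eq (D.pt_mem_source (p := (i, D.co i e * g⁻¹)) hi), dF_deck h hg _ hi,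
    ← LinearMap.range_comp]
  rfl

namespace Eqv

variable (E : Eqv D H a L lam)
include E

theorem eqvH {h : G} (hh : h ∈ H) (e : D.cov G) : a (h • e) = a e + lam h := by
  rw [E.eqv, E.LH h hh]; rfl

/-- the period lattice -/
def lat [Nonempty (D.cov G)] : AddSubgroup W where
  carrier := {l | ∃ h ∈ H, lam h = l}
  add_mem' := by
    rintro _ _ ⟨g, hg, rfl⟩ ⟨h, hh, rfl⟩
    obtain ⟨e⟩ := ‹Nonempty (D.cov G)›
    refine ⟨h * g, H.mul_mem hh hg, add_left_cancel (a := a e) ?_⟩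
    rw [← E.eqvH (H.mul_mem hh hg), mul_smul, E.eqvH hh, E.eqvH hg, add_assoc]
  zero_mem' := by
    obtain ⟨e⟩ := ‹Nonempty (D.cov G)›
    refine ⟨1, H.one_mem, add_left_cancel (a := a e) ?_⟩
    rw [← E.eqvH H.one_mem, one_smul, add_zero]
  neg_mem' := by
    rintro _ ⟨h, hh, rfl⟩
    obtain ⟨e⟩ := ‹Nonempty (D.cov G)›
    refine ⟨h⁻¹, H.inv_mem hh, eq_neg_of_add_eq_zero_right (add_left_cancel (a := a e) ?_)⟩
    rw [← add_assoc, ← E.eqvH hh, ← E.eqvH (H.inv_mem hh), inv_smul_smul, add_zero]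

theorem span_lat [Nonempty (D.cov G)] : Submodule.span ℝ (E.lat : Set W) = ⊤ := by
  have : FiniteDimensional ℝ W := FiniteDimensional.complexToReal W
  by_contra hcon
  obtain ⟨f, hf, hle⟩ := Submodule.exists_le_ker_of_lt_top _ (lt_top_iff_ne_top.2 hcon)
  have h1 := E.span (LinearMap.toContinuousLinearMap f) fun h hh =>
    hle (Submodule.subset_span ⟨h, hh, rfl⟩)
  exact hf (LinearMap.toContinuousLinearMap.map_eq_zero_iff.1 h1)

omit E in
theorem exists_fundH [CompactSpace X] [T2Space X] [Finite A.ι] (D : MonD A G) (H : Subgroup G)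
    [H.FiniteIndex] : ∃ K : Set (D.cov G), IsCompact K ∧ ∀ e, ∃ h ∈ H, ∃ k ∈ K, e = h • k := by
  obtain ⟨K, hK, hc⟩ := D.exists_fund
  refine ⟨⋃ c : G ⧸ H, (fun e => (c.out)⁻¹ • e) '' K,
    isCompact_iUnion fun c => hK.image (continuous_const_smul _), fun e => ?_⟩
  obtain ⟨g, hg⟩ := hc e
  obtain ⟨h, hh⟩ := QuotientGroup.mk_out_eq_mul H g
  refine ⟨h, h.2, _, mem_iUnion.2 ⟨(g : G ⧸ H), _, hg, rfl⟩, ?_⟩
  simp only [hh, smul_smul]
  rw [show (h : G) * ((g * h)⁻¹ * g) = 1 by group, one_smul]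

theorem per [Nonempty (D.cov G)] {K : Set (D.cov G)} (hK : IsCompact K)
    (hc : ∀ e, ∃ h ∈ H, ∃ k ∈ K, e = h • k) : Per a K E.lat where
  cpt := hK
  fin := E.disc
  cov e := by
    obtain ⟨h, hh, k, hk, rfl⟩ := hc e
    exact ⟨k, hk, _, ⟨h, hh, rfl⟩, E.eqvH hh k⟩
  per := by
    rintro e _ ⟨h, hh, rfl⟩
    exact ⟨h • e, E.eqvH hh e⟩

theorem tg (g : G) (e : D.cov G) :
    Tg (D.atl G) a (g • e) = (Tg (D.atl G) a e).map (L g : W →ₗ[ℂ] W) := tg_deck E.hol (E.eqv g) e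

theorem map_D0 (g : G) {w : W} (hw : w ∈ D0 (D.atl G) a) : L g w ∈ D0 (D.atl G) a := by
  refine mem_D0.2 fun e he => ?_
  have h1 := E.tg g (g⁻¹ • e)
  rw [smul_inv_smul] at h1
  have h2 : finrank ℂ (Tg (D.atl G) a (g⁻¹ • e)) = rmax (D.atl G) a := by
    refine le_antisymm (le_rmax _) ?_
    rw [← he, h1]
    exact Submodule.finrank_map_le _ _
  rw [h1]
  exact ⟨w, mem_D0.1 hw _ h2, rfl⟩

/-- **Ueno**: the differential is onto at some point -/
theorem exists_top [CompactSpace X] [T2Space X] [Finite A.ι] [ConnectedSpace (D.cov G)]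
    [H.FiniteIndex] (hN : NoForms D H) : ∃ e, Tg (D.atl G) a e = ⊤ := by
  classical
  obtain ⟨K, hK, hc⟩ := exists_fundH D H
  obtain ⟨R, hR⟩ := exists_cocpt E.span_lat
  obtain ⟨P, hP, hPP⟩ := exists_proj (D0 (D.atl G) a)
  obtain ⟨x₀, hx₀⟩ := exists_rmax (D.atl G) a
  have hle : finrank ℂ (D0 (D.atl G) a) ≤ rmax (D.atl G) a :=
    hx₀ ▸ Submodule.finrank_mono fun w hw => mem_D0.1 hw x₀ hx₀
  have hPD : ∀ w, P w = 0 ↔ w ∈ D0 (D.atl G) a := fun w => by rw [← hP]; rfl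
  have hrk := E.hol.rank_proj hP
  have hol' := E.hol.clm P
  have eqv' : ∀ (g : G) e, P (a (g • e)) = (P.comp (L g)) (P (a e)) + P (lam g) := by
    intro g e
    rw [E.eqv, map_add, ContinuousLinearMap.comp_apply, add_left_inj, ← sub_eq_zero, ← map_sub,
      ← map_sub, hPD]
    exact E.map_D0 g ((hPD _).1 (by rw [map_sub, hPP, sub_self]))
  obtain ⟨p, hp⟩ := Nat.exists_eq_add_of_le' hle
  rcases Nat.eq_zero_or_pos p with rfl | hp0
  · have h1 : ∀ h ∈ H, lam h ∈ D0 (D.atl G) a := by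
      intro h hh
      have h2 := hol'.const (fun y => Submodule.finrank_eq_zero.1 (by have := hrk y; omega))
        (h • x₀) x₀
      rw [E.eqvH hh, map_add, add_eq_left] at h2
      exact (hPD _).1 h2
    have h2 : Submodule.span ℝ (E.lat : Set W) ≤ (D0 (D.atl G) a).restrictScalars ℝ := by
      refine Submodule.span_le.2 ?_
      rintro _ ⟨h, hh, rfl⟩
      exact h1 h hh
    rw [E.span_lat] at h2
    exact ⟨x₀, eq_top_iff.2 fun w _ => mem_D0.1 (h2 Submodule.mem_top) x₀ hx₀⟩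
  exfalso
  obtain ⟨c, e₀, m, l, j, z, h1, h2, h3, -, h5⟩ := (E.per hK hc).gauss E.hol hR hP hPP hp.symm
  set ll : Fin (p + 1) → Fin p → W →L[ℂ] ℂ :=
    Fin.cons m fun k => Function.update m (j k) (l k) with hll
  refine hN p hp0 (fun k => fm (D.atl G) (fun y => P (a y)) (ll k)) (fun k => hol'.fm_mem _)
    (fun k h hh i v x => ?_) (fun k k' i v w x hx => ?_) c e₀ z h1 (fm_ne h1 h2) ?_ h5
  · by_cases hx : x ∈ (A.e i).source
    · rw [fm_of_mem _ (D.pt_mem_source (p := (i, v * h⁻¹)) hx),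
        fm_of_mem _ (D.pt_mem_source (p := (i, v)) hx),
        dF_deck hol' (T := ContinuousLinearMap.id ℂ W) (c := P (lam h))
          (fun e => by rw [E.eqvH hh, map_add]; rfl) v hx]
      rfl
    · exact (fm_of_not (A := D.atl G) (i := (i, v * h⁻¹)) (x := D.pt i (v * h⁻¹) x) _
        fun h => hx h.1).trans
        (fm_of_not (A := D.atl G) (i := (i, v)) (x := D.pt i v x) _ fun h => hx h.1).symm
  · obtain ⟨g, rfl⟩ : ∃ g : G, w = v * g⁻¹ := ⟨w⁻¹ * v, by group⟩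
    have hv := D.pt_mem_source (p := (i, v)) hx
    rw [fm_of_mem _ (D.pt_mem_source (p := (i, v * g⁻¹)) hx), fm_of_mem _ hv,
      dF_deck hol' (eqv' g) v hx]
    refine par_wdg ?_ _ fun b => (ll k' b).comp (P.comp (L g))
    have := hrk (D.pt i v x)
    rw [hol'.tg_eq hv] at this
    omega
  · filter_upwards [h3, ((D.atl G).e c).open_source.mem_nhds h1] with e he he' k
    obtain ⟨cc, h6, h7⟩ := he k
    rw [← h6]
    exact fm_update he' (j k) h7

end Eqv


/-- **UENO** -/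
theorem Eqv.ueno {q : ℕ} {a : D.cov G → Cn q} {L : G → Cn q →L[ℂ] Cn q} {lam : G → Cn q}
    (E : Eqv D H a L lam) [CompactSpace X] [T2Space X] [Finite A.ι] [ConnectedSpace (D.cov G)]
    [H.FiniteIndex] (hN : NoForms D H) :
    (∃ e, e ∉ Crit (D.atl G) univ a) ∧ q ≤ n ∧ Function.Surjective a := by
  obtain ⟨e, he⟩ := E.exists_top hN
  obtain ⟨K, hK, hc⟩ := Eqv.exists_fundH D H
  refine ⟨⟨e, E.hol.not_crit.2 he⟩, ?_, (E.per hK hc).surjective E.hol he⟩
  have := finrank_tg_le (A := D.atl G) a e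
  rw [he, finrank_top] at this
  simpa using this

end Crest.Agent.X261.Uen
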