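import Crest.Agent.R281.Thn3_280
import Crest.Agent.R281.Thn4_280
import Crest.Agent.X261.Uen.Sub
import Crest.Agent.R281.ThnN_280
import Crest.Agent.X261.Plk.C
import Crest.Agent.X261.Bog.Defs
import Crest.Agent.R273.HolF_578
import Crest.Agent.R273.UCovC_914

-- ▼ part X261/Uen/Thin
section

/-!
X261 / Uen / Thin (helper80): local graphs (constant rank theorem), sets which are locally finite
unions of graphs, analytic continuation along complex lines.
-/

set_option autoImplicit false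
set_option linter.unusedSectionVars false

open Set Filter Topology Metric Module MeasureTheory

noncomputable section

namespace Crest.Agent.X261.Uen.Thin

open Crest.Agent.R281.Thn_280

/-- almost every vertical line meets a `σ`-thin set in a countable set -/
theorem dense_vert {V : Type*} [NormedAddCommGroup V] [NormedSpace ℂ V] [FiniteDimensional ℂ V]
    {E : Set (V × ℂ)} (hE : STh E) : Dense {x : V | {t : ℂ | (x, t) ∈ E}.Countable} := by
  have : ProperSpace V := FiniteDimensional.proper ℂ V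
  borelize V
  obtain ⟨K⟩ : Nonempty (TopologicalSpace.PositiveCompacts V) := inferInstance
  let μ : Measure V := Measure.addHaarMeasure K
  refine Measure.dense_of_ae (μ := μ) ?_
  obtain ⟨U, g, h1, h2⟩ := hE
  have hae : ∀ᵐ x ∂μ, ∀ j : ℕ, (volume : Measure ℂ) (Prod.mk x ⁻¹'
      {z | z ∈ U j ∧ g j z = 0 ∧ fderiv ℂ (g j) z ≠ 0}) = 0 := by
    rw [ae_all_iff]; intro j
    exact Measure.measure_ae_null_of_prod_null
      (piece_null (μ.prod (volume : Measure ℂ)) (h1 j).1 (h1 j).2)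
  filter_upwards [hae] with x hx
  have hsub : {t : ℂ | (x, t) ∈ E} ⊆
      ⋃ j, {t : ℂ | (x, t) ∈ U j ∧ g j (x, t) = 0 ∧ fderiv ℂ (g j) (x, t) ≠ 0} :=
    fun t ht => mem_iUnion.2 (h2 _ ht)
  refine (countable_iUnion (fun j => ?_)).mono hsub
  refine countable_of_isolated (fun t ht => ?_)
  obtain ⟨ht1, ht2, ht3⟩ := ht
  have hline : Continuous (fun s : ℂ => (x, s)) := by fun_prop
  have hφ : AnalyticAt ℂ (fun s : ℂ => g j (x, s)) t := by
    have h4 : AnalyticAt ℂ (fun ζ : ℂ => (x, ζ)) t := analyticAt_const.prod analyticAt_id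
    exact AnalyticAt.comp (g := g j) (f := fun ζ : ℂ => (x, ζ)) ((h1 j).2 _ ht1) h4
  rcases hφ.eventually_eq_zero_or_eventually_ne_zero with h5 | h5
  · exfalso
    have e1 : ∀ᶠ s in 𝓝 t, (x, s) ∈ U j := hline.continuousAt.eventually ((h1 j).1.mem_nhds ht1)
    have e2 : ∀ᶠ s in 𝓝 t, fderiv ℂ (g j) (x, s) ≠ 0 := by
      have c1 : ContinuousAt (fderiv ℂ (g j)) (x, t) := ((h1 j).2 _ ht1).fderiv.continuousAt
      have c2 : ContinuousAt (fun s : ℂ => fderiv ℂ (g j) (x, s)) t :=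
        ContinuousAt.comp (f := fun s : ℂ => (x, s)) c1 hline.continuousAt
      exact c2.eventually_ne ht3
    have e3 : Prod.mk x ⁻¹' {z | z ∈ U j ∧ g j z = 0 ∧ fderiv ℂ (g j) z ≠ 0} ∈ 𝓝 t := by
      filter_upwards [e1, h5, e2] with s a1 a2 a3 using ⟨a1, a2, a3⟩
    exact (Measure.measure_pos_of_mem_nhds (volume : Measure ℂ) e3).ne' (hx j)
  · rw [eventually_nhdsWithin_iff] at h5
    refine ⟨_, h5, ?_⟩
    rintro s ⟨hs, hs2⟩
    by_contra hne
    exact hs hne hs2.2.1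

/-- a finite family of continuous maps one of which vanishes at each point: one of them vanishes
on an open set -/
theorem exists_open_zero {Y W κ : Type*} [TopologicalSpace Y] [TopologicalSpace W] [T1Space W]
    [Zero W] {S : Set κ} (hS : S.Finite) (e : κ → Y → W) : ∀ {Q : Set Y}, IsOpen Q → Q.Nonempty →
    (∀ i ∈ S, ContinuousOn (e i) Q) → (∀ y ∈ Q, ∃ i ∈ S, e i y = 0) →
    ∃ i ∈ S, ∃ Q' ⊆ Q, IsOpen Q' ∧ Q'.Nonempty ∧ ∀ y ∈ Q', e i y = 0 := by
  induction S, hS using Set.Finite.induction_on with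
  | empty =>
    rintro Q _ ⟨y, hy⟩ _ h
    obtain ⟨i, hi, -⟩ := h y hy
    exact hi.elim
  | @insert a S _ _ ih =>
    intro Q hQ hne hc h
    by_cases ha : ∀ y ∈ Q, e a y = 0
    · exact ⟨a, mem_insert _ _, Q, subset_rfl, hQ, hne, ha⟩
    · push Not at ha
      obtain ⟨y, hy, hya⟩ := ha
      have ho : IsOpen (Q ∩ e a ⁻¹' {0}ᶜ) :=
        (hc a (mem_insert _ _)).isOpen_inter_preimage hQ isOpen_compl_singleton
      obtain ⟨i, hi, Q', h1, h2, h3, h4⟩ := ih ho ⟨y, hy, hya⟩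
        (fun i hi => (hc i (mem_insert_of_mem _ hi)).mono inter_subset_left) (by
          rintro z ⟨hz, hza⟩
          obtain ⟨i, hi | hi, hiz⟩ := h z hz
          · subst hi; exact (hza hiz).elim
          · exact ⟨i, hi, hiz⟩)
      exact ⟨i, mem_insert_of_mem _ hi, Q', h1.trans inter_subset_left, h2, h3, h4⟩

variable {V W X : Type*} [NormedAddCommGroup V] [NormedSpace ℂ V] [FiniteDimensional ℂ V]
  [NormedAddCommGroup W] [NormedSpace ℂ W] [FiniteDimensional ℂ W]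
  [NormedAddCommGroup X] [NormedSpace ℂ X] [FiniteDimensional ℂ X]

/-- rank of a continuous linear map -/
def rk (T : V →L[ℂ] W) : ℕ := finrank ℂ (LinearMap.range (T : V →ₗ[ℂ] W))

/-- if `B ∘ T` is onto `X` and the rank of `T` is at most `dim X`, `B` is injective on the image
of `T` -/
theorem inj_of_rk {T : V →L[ℂ] W} {B : W →L[ℂ] X} (hs : ∀ x, ∃ v, B (T v) = x)
    (hr : rk T ≤ finrank ℂ X) {v : V} (hv : B (T v) = 0) : T v = 0 := by
  set b : LinearMap.range (T : V →ₗ[ℂ] W) →ₗ[ℂ] X :=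
    (B : W →ₗ[ℂ] X) ∘ₗ (LinearMap.range (T : V →ₗ[ℂ] W)).subtype with hb
  have hbs : Function.Surjective b := by
    intro x
    obtain ⟨w, hw⟩ := hs x
    exact ⟨⟨T w, ⟨w, rfl⟩⟩, hw⟩
  have h3 : finrank ℂ (LinearMap.range (T : V →ₗ[ℂ] W)) = finrank ℂ X :=
    le_antisymm hr (LinearMap.finrank_le_finrank_of_surjective hbs)
  have hbi : Function.Injective b :=
    (LinearMap.injective_iff_surjective_of_finrank_eq_finrank h3).2 hbs
  have h8 : b ⟨T v, ⟨v, rfl⟩⟩ = b 0 := by rw [map_zero]; exact hv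
  exact congrArg Subtype.val (hbi h8)

theorem le_rk {T : V →L[ℂ] W} {B : W →L[ℂ] X} (hs : ∀ x, ∃ v, B (T v) = x) :
    finrank ℂ X ≤ rk T := by
  refine LinearMap.finrank_le_finrank_of_surjective
    (f := (B : W →ₗ[ℂ] X) ∘ₗ (LinearMap.range (T : V →ₗ[ℂ] W)).subtype) fun x => ?_
  obtain ⟨w, hw⟩ := hs x
  exact ⟨⟨T w, ⟨w, rfl⟩⟩, hw⟩

/-- **constant rank theorem**: local graph -/
theorem locGraph {Φ : V → W} {N : Set V} (hNo : IsOpen N) (hΦ : AnalyticOnNhd ℂ Φ N) {z₂ : V}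
    (hz₂ : z₂ ∈ N) (B : W →L[ℂ] X) (hs : ∀ x, ∃ v, B (fderiv ℂ Φ z₂ v) = x)
    (hr : ∀ z ∈ N, rk (fderiv ℂ Φ z) ≤ finrank ℂ X) :
    ∃ ρ > 0, ∃ σ : X → V, AnalyticOnNhd ℂ σ (ball (B (Φ z₂)) ρ) ∧ σ (B (Φ z₂)) = z₂ ∧
      (∀ u ∈ ball (B (Φ z₂)) ρ, σ u ∈ N ∧ B (Φ (σ u)) = u) ∧
      ∀ᶠ z in 𝓝 z₂, Φ z = Φ (σ (B (Φ z))) := by
  have : CompleteSpace V := FiniteDimensional.complete ℂ V
  have : CompleteSpace W := FiniteDimensional.complete ℂ W
  have : CompleteSpace X := FiniteDimensional.complete ℂ X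
  set F : V → X := fun z => B (Φ z) with hFdef
  have hFa : AnalyticOnNhd ℂ F N := fun z hz => (B.analyticAt _).comp (hΦ z hz)
  have hFd : ∀ z ∈ N, fderiv ℂ F z = B.comp (fderiv ℂ Φ z) := fun z hz =>
    (B.hasFDerivAt.comp z (hΦ z hz).differentiableAt.hasFDerivAt).fderiv
  set L : V →L[ℂ] X := fderiv ℂ F z₂ with hLdef
  obtain ⟨A0, hA0⟩ := (L : V →ₗ[ℂ] X).exists_rightInverse_of_surjective (by
    rw [LinearMap.range_eq_top]
    intro x
    obtain ⟨v, hv⟩ := hs x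
    exact ⟨v, by change L v = x; rw [hLdef, hFd z₂ hz₂]; exact hv⟩)
  set A : X →L[ℂ] V := LinearMap.toContinuousLinearMap A0 with hAdef
  have hLA : ∀ x, L (A x) = x := fun x => LinearMap.congr_fun hA0 x
  obtain ⟨O, O', G, hOo, hO'o, hzO, hON, hGa, h1, h2⟩ :=
    straighten (hNo.mem_nhds hz₂) hFa L rfl A hLA
  set w₀ : V := z₂ + A (F z₂ - L z₂) with hw₀
  have hw₀O : w₀ ∈ O' := (h1 z₂ hzO).1
  have hGw₀ : G w₀ = z₂ := (h1 z₂ hzO).2.1
  have hLw₀ : L w₀ = F z₂ := (h1 z₂ hzO).2.2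
  obtain ⟨ε, hε, hεO⟩ := Metric.isOpen_iff.1 hO'o w₀ hw₀O
  set τ : X → V := fun c => w₀ + A (c - F z₂) with hτ
  have hτc : Continuous τ := by fun_prop
  have hτ0 : τ (F z₂) = w₀ := by simp [hτ]
  have hLτ : ∀ c, L (τ c) = c := by
    intro c
    simp only [hτ, map_add, hLA, hLw₀]
    abel
  have hkey : ∀ w ∈ ball w₀ ε, τ (L w) ∈ ball w₀ ε → Φ (G w) = Φ (G (τ (L w))) := by
    intro w hw hPw
    set k : V := τ (L w) - w with hk
    have hLk : L k = 0 := by rw [hk, map_sub, hLτ, sub_self]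
    have hmem : ∀ t ∈ Icc (0 : ℝ) 1, w + (t : ℂ) • k ∈ ball w₀ ε := by
      intro t ht
      have h3 : w + (t : ℂ) • k = (1 - t) • w + t • τ (L w) := by
        have h4 : (t : ℂ) • k = t • k := by rw [← Complex.coe_smul]
        rw [h4, hk, sub_smul, one_smul, smul_sub]
        abel
      rw [h3]
      exact (convex_ball w₀ ε) hw hPw (by linarith [ht.2]) ht.1 (by ring)
    have hder : ∀ t ∈ Icc (0 : ℝ) 1, HasDerivAt (fun s : ℝ => Φ (G (w + (s : ℂ) • k))) 0 t := by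
      intro t ht
      set w' := w + (t : ℂ) • k with hw'
      have hw'O : w' ∈ O' := hεO (hmem t ht)
      have hGN : G w' ∈ N := hON (h2 w' hw'O).1
      have hGd : HasFDerivAt G (fderiv ℂ G w') w' := (hGa w' hw'O).differentiableAt.hasFDerivAt
      have hΦd : HasFDerivAt Φ (fderiv ℂ Φ (G w')) (G w') :=
        (hΦ _ hGN).differentiableAt.hasFDerivAt
      have hc : HasFDerivAt (fun w => Φ (G w)) ((fderiv ℂ Φ (G w')).comp (fderiv ℂ G w')) w' :=
        hΦd.comp w' hGd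
      have hFG : HasFDerivAt (fun w => F (G w)) (B.comp ((fderiv ℂ Φ (G w')).comp (fderiv ℂ G w')))
          w' := B.hasFDerivAt.comp w' hc
      have hFG' : HasFDerivAt (fun w => F (G w)) L w' := by
        refine L.hasFDerivAt.congr_of_eventuallyEq ?_
        filter_upwards [hO'o.mem_nhds hw'O] with x hx using (h2 x hx).2.2
      have heq : ∀ v, B (fderiv ℂ Φ (G w') (fderiv ℂ G w' v)) = L v := fun v =>
        congrArg (fun T : V →L[ℂ] X => T v) (hFG.unique hFG')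
      have h0' : fderiv ℂ Φ (G w') (fderiv ℂ G w' k) = 0 :=
        inj_of_rk (fun x => ⟨_, (heq (A x)).trans (hLA x)⟩) (hr _ hGN) ((heq k).trans hLk)
      have hline : HasDerivAt (fun s : ℝ => w + (s : ℂ) • k) k t := by
        have := ((Complex.ofRealCLM.hasDerivAt (x := t)).smul_const k).const_add w
        simpa using this
      have h5 := (hc.restrictScalars ℝ).comp_hasDerivAt t hline
      have h6 : (((fderiv ℂ Φ (G w')).comp (fderiv ℂ G w')).restrictScalars ℝ) k = 0 := h0'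
      rw [h6] at h5
      exact h5
    have hconst := constant_of_has_deriv_right_zero (f := fun s : ℝ => Φ (G (w + (s : ℂ) • k)))
      (a := 0) (b := 1) (fun t ht => (hder t ht).continuousAt.continuousWithinAt)
      (fun t ht => (hder t ⟨ht.1, ht.2.le⟩).hasDerivWithinAt) 1 ⟨zero_le_one, le_refl 1⟩
    simp only [Complex.ofReal_one, one_smul, Complex.ofReal_zero, zero_smul, add_zero] at hconst
    rw [← hconst, hk, add_sub_cancel]
  have hτn : τ ⁻¹' ball w₀ ε ∈ 𝓝 (F z₂) :=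
    hτc.continuousAt.preimage_mem_nhds (by rw [hτ0]; exact ball_mem_nhds w₀ hε)
  obtain ⟨ρ, hρ, hρs⟩ := Metric.mem_nhds_iff.1 hτn
  refine ⟨ρ, hρ, fun c => G (τ c), fun c hc => ?_, by change G (τ (F z₂)) = z₂; rw [hτ0, hGw₀],
    fun c hc => ⟨hON (h2 _ (hεO (hρs hc))).1, ?_⟩, ?_⟩
  · have a1 : AnalyticAt ℂ τ c :=
      analyticAt_const.add ((A.analyticAt _).comp (analyticAt_id.sub analyticAt_const))
    exact AnalyticAt.comp (g := G) (f := τ) (hGa _ (hεO (hρs hc))) a1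
  · exact ((h2 _ (hεO (hρs hc))).2.2).trans (hLτ c)
  · have hFc : ContinuousAt F z₂ := (hFa z₂ hz₂).continuousAt
    have hΨc : ContinuousAt (fun z => z + A (F z - L z)) z₂ := by fun_prop
    filter_upwards [hΨc.eventually (ball_mem_nhds w₀ hε), hFc.eventually hτn,
      hOo.mem_nhds hzO] with z e1 e2 e3
    have hk := hkey _ e1 (by rw [(h1 z e3).2.2]; exact e2)
    rw [(h1 z e3).2.1, (h1 z e3).2.2] at hk
    exact hk

/-- near `p`, the set `Z` is a finite union of graphs over the coordinates `B` -/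
def LocG (B : W →L[ℂ] X) (Z : Set W) (p : W) : Prop :=
  ∃ S : Set (X → W), S.Finite ∧ ∃ ρ > 0, (∀ g ∈ S, AnalyticOnNhd ℂ g (ball (B p) ρ) ∧
    ∀ u ∈ ball (B p) ρ, g u ∈ Z ∧ B (g u) = u) ∧ ∀ᶠ w in 𝓝 p, w ∈ Z → ∃ g ∈ S, w = g (B w)

variable {B : W →L[ℂ] X} {Z : Set W}

theorem LocG.ext {Y : Type*} [NormedAddCommGroup Y] [NormedSpace ℂ Y] {ψ : Y → W} {y₀ : Y}
    (h : LocG B Z (ψ y₀)) (hψ : AnalyticAt ℂ ψ y₀)
    (hf : ∃ᶠ y in 𝓝 y₀, ∀ᶠ y' in 𝓝 y, ψ y' ∈ Z) : ∀ᶠ y in 𝓝 y₀, ψ y ∈ Z := by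
  have : CompleteSpace W := FiniteDimensional.complete ℂ W
  obtain ⟨S, hS, ρ, hρ, hg, hw⟩ := h
  have e1 : ∀ᶠ y in 𝓝 y₀, B (ψ y) ∈ ball (B (ψ y₀)) ρ :=
    (B.continuous.continuousAt.comp hψ.continuousAt).eventually (ball_mem_nhds _ hρ)
  have e2 := hψ.continuousAt.eventually hw
  obtain ⟨δ, hδ, hb⟩ := Metric.mem_nhds_iff.1 ((e1.and e2).and hψ.eventually_analyticAt)
  obtain ⟨y₁, hy₁, hy₁b⟩ := (hf.and_eventually (ball_mem_nhds y₀ hδ)).exists
  obtain ⟨Q, hQ1, hQo, hQy⟩ := _root_.eventually_nhds_iff.1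
    (hy₁.and (isOpen_ball.mem_nhds hy₁b))
  have ha : ∀ g ∈ S, AnalyticOnNhd ℂ (fun y => ψ y - g (B (ψ y))) (ball y₀ δ) := by
    intro g hgS y hy
    have a1 : AnalyticAt ℂ (fun y => B (ψ y)) y := (B.analyticAt _).comp (hb hy).2
    exact (hb hy).2.sub (AnalyticAt.comp (g := g) (f := fun y => B (ψ y))
      ((hg g hgS).1 _ (hb hy).1.1) a1)
  obtain ⟨g, hgS, Q', h1, h2, ⟨y₂, hy₂⟩, h4⟩ := exists_open_zero hS
    (fun g y => ψ y - g (B (ψ y))) hQo ⟨y₁, hQy⟩
    (fun g hgS => (ha g hgS).continuousOn.mono fun y hy => (hQ1 y hy).2) (by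
      intro y hy
      obtain ⟨g, hgS, hgy⟩ := (hb (hQ1 y hy).2).1.2 (hQ1 y hy).1
      exact ⟨g, hgS, sub_eq_zero.2 hgy⟩)
  have h5 := (ha g hgS).eqOn_zero_of_preconnected_of_eventuallyEq_zero
    (convex_ball y₀ δ).isPreconnected (hQ1 _ (h1 hy₂)).2
    (by filter_upwards [h2.mem_nhds hy₂] with y hy using h4 y hy)
  filter_upwards [ball_mem_nhds y₀ hδ] with y hy
  have h6 : ψ y = g (B (ψ y)) := sub_eq_zero.1 (h5 hy)
  rw [h6]
  exact ((hg g hgS).2 _ (hb hy).1.1).1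

/-- continuation along a curve parametrised by `ℂ` -/
theorem line_ext {Y : Type*} [NormedAddCommGroup Y] [NormedSpace ℂ Y] {ψ : Y → W} {γ : ℂ → Y}
    (hZ : IsClosed Z) (hγ : Continuous γ) (hψ : ∀ t, AnalyticAt ℂ ψ (γ t))
    (hc : {t | ψ (γ t) ∈ Z ∧ ¬ LocG B Z (ψ (γ t))}.Countable)
    (h0 : ∀ᶠ y in 𝓝 (γ 0), ψ y ∈ Z) (t : ℂ) : ψ (γ t) ∈ Z := by
  set E := {t | ψ (γ t) ∈ Z ∧ ¬ LocG B Z (ψ (γ t))} with hE
  set G := {t | ∀ᶠ y in 𝓝 (γ t), ψ y ∈ Z} with hG
  have hGo : IsOpen G := by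
    have : G = γ ⁻¹' interior {y | ψ y ∈ Z} := by
      ext t; simp [hG, mem_interior_iff_mem_nhds, Filter.Eventually]
    rw [this]
    exact isOpen_interior.preimage hγ
  have hcont : Continuous fun t => ψ (γ t) :=
    continuous_iff_continuousAt.2 fun t => (hψ t).continuousAt.comp hγ.continuousAt
  have hGZ : closure G ⊆ {t | ψ (γ t) ∈ Z} :=
    closure_minimal (fun t ht => ht.self_of_nhds) (hZ.preimage hcont)
  have hcon : IsPreconnected Eᶜ :=
    (hc.isConnected_compl_of_one_lt_rank (by simp)).isPreconnected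
  have hd : Dense Eᶜ := hc.dense_compl ℂ
  have hsub : Eᶜ ⊆ G := by
    refine hcon.subset_of_closure_inter_subset hGo ?_ ?_
    · obtain ⟨s, hs1, hs2⟩ := hd.inter_open_nonempty G hGo ⟨0, h0⟩
      exact ⟨s, hs2, hs1⟩
    · rintro s ⟨hs, hsE⟩
      have hl : LocG B Z (ψ (γ s)) := by
        by_contra hcon
        exact hsE ⟨hGZ hs, hcon⟩
      refine hl.ext (hψ s) ?_
      rw [mem_closure_iff_frequently] at hs
      exact hγ.continuousAt.tendsto.frequently_map _ (fun _ h => h) hs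
  exact hGZ (hd.mono hsub t)

end Crest.Agent.X261.Uen.Thin
end
end

-- ▼ part X261/Uen/Dev
section

/-!
X261 / Uen / Dev (helper80): a graph with degenerate second fundamental form is ruled by lines.
-/

set_option autoImplicit false
set_option linter.unusedSectionVars false

open Set Filter Topology Metric Module

noncomputable section

namespace Crest.Agent.X261.Uen.Dev

open Crest.Agent.R281.Thn_280 Crest.Agent.X261.Uen.Thin

variable {X W : Type*} [NormedAddCommGroup X] [NormedSpace ℂ X] [FiniteDimensional ℂ X]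
  [NormedAddCommGroup W] [NormedSpace ℂ W] [FiniteDimensional ℂ W]

theorem an_apply {Y E F : Type*} [NormedAddCommGroup Y] [NormedSpace ℂ Y] [NormedAddCommGroup E]
    [NormedSpace ℂ E] [NormedAddCommGroup F] [NormedSpace ℂ F] {c : Y → E →L[ℂ] F} {u : Y → E}
    {y : Y} (hc : AnalyticAt ℂ c y) (hu : AnalyticAt ℂ u y) :
    AnalyticAt ℂ (fun y => c y (u y)) y :=
  AnalyticAt.comp₂ (h := fun p : (E →L[ℂ] F) × E => p.1 p.2)
    ((ContinuousLinearMap.id ℂ (E →L[ℂ] F)).analyticAt_bilinear (c y, u y)) hc hu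

theorem an_comp {Y E F G : Type*} [NormedAddCommGroup Y] [NormedSpace ℂ Y] [NormedAddCommGroup E]
    [NormedSpace ℂ E] [NormedAddCommGroup F] [NormedSpace ℂ F] [NormedAddCommGroup G]
    [NormedSpace ℂ G] {c : Y → F →L[ℂ] G} {u : Y → E →L[ℂ] F}
    {y : Y} (hc : AnalyticAt ℂ c y) (hu : AnalyticAt ℂ u y) :
    AnalyticAt ℂ (fun y => (c y).comp (u y)) y :=
  AnalyticAt.comp₂ (h := fun p : (F →L[ℂ] G) × (E →L[ℂ] F) => p.1.comp p.2)
    ((ContinuousLinearMap.compL ℂ E F G).analyticAt_bilinear (c y, u y)) hc hu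

theorem der_line {Y E : Type*} [NormedAddCommGroup Y] [NormedSpace ℂ Y] [NormedAddCommGroup E]
    [NormedSpace ℂ E] {f : Y → E} {u k : Y} (s : ℝ) (hf : AnalyticAt ℂ f (u + (s : ℂ) • k)) :
    HasDerivAt (fun s : ℝ => f (u + (s : ℂ) • k)) (fderiv ℂ f (u + (s : ℂ) • k) k) s := by
  have hline : HasDerivAt (fun s : ℝ => u + (s : ℂ) • k) k s := by
    have := ((Complex.ofRealCLM.hasDerivAt (x := s)).smul_const k).const_add u
    simpa using this
  have h := (hf.differentiableAt.hasFDerivAt.restrictScalars ℝ).comp_hasDerivAt s hline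
  exact h

/-- the second derivative -/
def Hs (g : X → W) (u : X) : X →L[ℂ] X →L[ℂ] W := fderiv ℂ (fderiv ℂ g) u

theorem hs_symm {g : X → W} {u : X} (hg : AnalyticAt ℂ g u) (a b : X) :
    Hs g u a b = Hs g u b a :=
  hg.contDiffAt.isSymmSndFDerivAt_of_omega a b

theorem an_fd {g : X → W} {u : X} (hg : AnalyticAt ℂ g u) : AnalyticAt ℂ (fderiv ℂ g) u := by
  have : CompleteSpace W := FiniteDimensional.complete ℂ W
  exact hg.fderiv

theorem an_hs {g : X → W} {u : X} (hg : AnalyticAt ℂ g u) : AnalyticAt ℂ (Hs g) u :=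
  an_fd (an_fd hg)

/-- a field in the kernel of the second derivative: its derivative along itself is again in the
kernel -/
theorem hs_dv {g : X → W} {v : X → X} {u : X} (hg : AnalyticAt ℂ g u) (hv : AnalyticAt ℂ v u)
    (h0 : ∀ᶠ x in 𝓝 u, Hs g x (v x) = 0) : Hs g u (fderiv ℂ v u (v u)) = 0 := by
  have : CompleteSpace W := FiniteDimensional.complete ℂ W
  set T := fderiv ℂ (Hs g) u with hT
  have hH : HasFDerivAt (Hs g) T u := (an_hs hg).differentiableAt.hasFDerivAt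
  have hV : HasFDerivAt v (fderiv ℂ v u) u := hv.differentiableAt.hasFDerivAt
  have h1 : ∀ a y, Hs g u (fderiv ℂ v u a) y + T a (v u) y = 0 := by
    intro a y
    have h2 := hH.clm_apply hV
    have h3 : HasFDerivAt (fun x => Hs g x (v x)) (0 : X →L[ℂ] X →L[ℂ] W) u :=
      (hasFDerivAt_const (0 : X →L[ℂ] W) u).congr_of_eventuallyEq h0
    have h4 := congrArg (fun L : X →L[ℂ] X →L[ℂ] W => L a y) (h2.unique h3)
    simpa using h4
  have s12 : ∀ a b, T a b = T b a := fun a b =>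
    (an_fd hg).contDiffAt.isSymmSndFDerivAt_of_omega a b
  have s23 : ∀ a b c, T a b c = T a c b := by
    intro a b c
    have h2 : ∀ b c : X, HasFDerivAt (fun x => Hs g x b c)
        (((T.flip b).flip c)) u := by
      intro b c
      have h5 := (hH.clm_apply (hasFDerivAt_const b u)).clm_apply (hasFDerivAt_const c u)
      simpa using h5
    have h3 : HasFDerivAt (fun x => Hs g x b c) ((T.flip c).flip b) u := by
      refine (h2 c b).congr_of_eventuallyEq ?_
      filter_upwards [hg.eventually_analyticAt] with x hx using hs_symm hx b c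
    have h4 := congrArg (fun L : X →L[ℂ] W => L a) ((h2 b c).unique h3)
    simpa using h4
  ext y
  have h5 : T y (v u) (v u) = 0 := by
    have h6 := h1 y (v u)
    rw [hs_symm hg, h0.self_of_nhds] at h6
    simpa using h6
  have h7 := h1 (v u) y
  rw [s23, s12, h5, add_zero] at h7
  exact h7

/-- an analytic kernel field through a kernel vector at a point of maximal rank, normalised so
that it is constant along itself -/
theorem exists_field {g : X → W} {O : Set X} (hO : IsOpen O) (hg : AnalyticOnNhd ℂ g O) {u₁ : X}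
    (hu₁ : u₁ ∈ O) (hmax : ∀ u ∈ O, rk (Hs g u) ≤ rk (Hs g u₁)) {v₁ : X} (hv₁ : Hs g u₁ v₁ = 0) :
    ∃ v : X → X, v u₁ = v₁ ∧ ∀ᶠ u in 𝓝 u₁, AnalyticAt ℂ v u ∧ Hs g u (v u) = 0 ∧
      fderiv ℂ v u (v u) = 0 := by
  have : CompleteSpace X := FiniteDimensional.complete ℂ X
  set r := rk (Hs g u₁) with hr
  obtain ⟨B, A, hBA⟩ := exists_AB (Hs g u₁) (r := r) rfl
  set T : X → ((Fin r → ℂ) →L[ℂ] (Fin r → ℂ)) := fun u => B.comp ((Hs g u).comp A) with hT
  have hT1 : T u₁ = 1 := by ext1 c; exact hBA c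
  have hTa : ∀ u ∈ O, AnalyticAt ℂ T u := by
    intro u hu
    exact an_comp analyticAt_const (an_comp (an_hs (hg u hu)) analyticAt_const)
  set c : X → (Fin r → ℂ) := fun u => Ring.inverse (T u) (B (Hs g u v₁)) with hc
  set v : X → X := fun u => v₁ - A (c u) with hv
  have e1 : ∀ᶠ u in 𝓝 u₁, IsUnit (T u) :=
    (hTa u₁ hu₁).continuousAt.eventually (Units.isOpen.mem_nhds (by
      change IsUnit (T u₁); rw [hT1]; exact isUnit_one))
  have e2 : ∀ᶠ u in 𝓝 u₁, AnalyticAt ℂ c u ∧ Hs g u (v u) = 0 ∧ IsUnit (T u) ∧ u ∈ O := by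
    filter_upwards [e1, hO.mem_nhds hu₁] with u hu huO
    refine ⟨?_, ?_, hu, huO⟩
    · obtain ⟨z, hz⟩ := hu
      have a1 : AnalyticAt ℂ (fun u => Ring.inverse (T u)) u :=
        AnalyticAt.comp (g := Ring.inverse) (f := T) (by rw [← hz]; exact analyticAt_inverse z)
          (hTa u huO)
      exact an_apply a1 ((B.analyticAt _).comp (an_apply (an_hs (hg u huO)) analyticAt_const))
    · have h3 : ∀ x, B (Hs g u (A (Ring.inverse (T u) x))) = x := fun x =>
        congrArg (fun L : (Fin r → ℂ) →L[ℂ] (Fin r → ℂ) => L x) (Ring.mul_inverse_cancel _ hu)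
      refine inj_of_rk (B := B) (fun x => ⟨_, h3 x⟩) (by simpa using hmax u huO) ?_
      simp only [hv, hc, map_sub, h3, sub_self]
  refine ⟨v, by simp [hv, hc, hv₁], ?_⟩
  filter_upwards [e2.eventually_nhds] with u hu
  obtain ⟨h1, h2, h3, h4⟩ := hu.self_of_nhds
  have hva : AnalyticAt ℂ v u := analyticAt_const.sub ((A.analyticAt _).comp h1)
  refine ⟨hva, h2, ?_⟩
  have h5 := hs_dv (hg u h4) hva (hu.mono fun x hx => hx.2.1)
  have h6 : fderiv ℂ v u = - A.comp (fderiv ℂ c u) :=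
    ((A.hasFDerivAt.comp u h1.differentiableAt.hasFDerivAt).const_sub v₁).fderiv
  rw [h6] at h5 ⊢
  have h7 : T u (fderiv ℂ c u (v u)) = 0 := by
    have := congrArg B h5
    simpa [hT] using this
  have h8 : fderiv ℂ c u (v u) = 0 := by
    have h9 := congrArg (fun L : (Fin r → ℂ) →L[ℂ] (Fin r → ℂ) => L (fderiv ℂ c u (v u)))
      (Ring.inverse_mul_cancel _ h3)
    change Ring.inverse (T u) (T u (fderiv ℂ c u (v u))) = fderiv ℂ c u (v u) at h9
    rw [h7, map_zero] at h9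
    exact h9.symm
  simp [h8]

/-- straight lines -/
theorem straight {g : X → W} {v : X → X} {u₁ : X} (hg : AnalyticAt ℂ g u₁)
    (h : ∀ᶠ u in 𝓝 u₁, AnalyticAt ℂ v u ∧ Hs g u (v u) = 0 ∧ fderiv ℂ v u (v u) = 0) :
    ∀ᶠ y in 𝓝 ((u₁, 0) : X × ℂ),
      g (y.1 + y.2 • v y.1) = g y.1 + y.2 • fderiv ℂ g y.1 (v y.1) := by
  have : CompleteSpace X := FiniteDimensional.complete ℂ X
  have : CompleteSpace W := FiniteDimensional.complete ℂ W
  have hv₁ := h.self_of_nhds.1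
  have e1 : ∀ᶠ u in 𝓝 u₁, ‖fderiv ℂ v u‖ < ‖fderiv ℂ v u₁‖ + 1 :=
    (an_fd hv₁).continuousAt.norm.eventually_lt continuousAt_const (lt_add_one _)
  obtain ⟨δ, hδ, hb⟩ := Metric.mem_nhds_iff.1 ((h.and e1).and hg.eventually_analyticAt)
  have hc1 : ContinuousAt (fun y : X × ℂ => y.1 + y.2 • v y.1) (u₁, 0) := by
    have : ContinuousAt (fun y : X × ℂ => v y.1) (u₁, 0) :=
      ContinuousAt.comp (f := Prod.fst) hv₁.continuousAt continuousAt_fst
    fun_prop
  have hc2 : ∀ᶠ y in 𝓝 ((u₁, 0) : X × ℂ), y.1 + y.2 • v y.1 ∈ ball u₁ δ :=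
    hc1.preimage_mem_nhds (by simpa using ball_mem_nhds u₁ hδ)
  filter_upwards [hc2,
    (continuousAt_fst (p := ((u₁, 0) : X × ℂ))).eventually (ball_mem_nhds u₁ hδ)] with y e2 e3
  obtain ⟨u, t⟩ := y
  simp only at e2 e3 ⊢
  set k : X := t • v u with hk
  have hmem : ∀ s ∈ Icc (0 : ℝ) 1, u + (s : ℂ) • k ∈ ball u₁ δ := by
    intro s hs
    have h3 : u + (s : ℂ) • k = (1 - s) • u + s • (u + k) := by
      have h4 : (s : ℂ) • k = s • k := by rw [← Complex.coe_smul]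
      rw [h4, sub_smul, one_smul, smul_add]
      abel
    rw [h3]
    exact (convex_ball u₁ δ) e3 e2 (by linarith [hs.2]) hs.1 (by ring)
  have k1 : ∀ s ∈ Icc (0 : ℝ) 1, v (u + (s : ℂ) • k) - v u = 0 := by
    refine eq_zero_of_abs_deriv_le_mul_abs_self_of_eq_zero_right
      (f' := fun s : ℝ => fderiv ℂ v (u + (s : ℂ) • k) k) (K := (‖fderiv ℂ v u₁‖ + 1) * ‖t‖)
      (fun s hs => ((der_line s (hb (hmem s hs)).1.1.1).sub_const (v u)).continuousAt.continuousWithinAt)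
      (fun s hs => ((der_line s (hb (hmem s ⟨hs.1, hs.2.le⟩)).1.1.1).sub_const (v u)).hasDerivWithinAt)
      (by simp) fun s hs => ?_
    obtain ⟨⟨⟨-, -, b3⟩, b4⟩, -⟩ := hb (hmem s ⟨hs.1, hs.2.le⟩)
    have h5 : fderiv ℂ v (u + (s : ℂ) • k) k =
        - fderiv ℂ v (u + (s : ℂ) • k) (t • (v (u + (s : ℂ) • k) - v u)) := by
      rw [smul_sub, map_sub, map_smul _ t (v (u + (s : ℂ) • k)), b3, smul_zero, zero_sub, neg_neg]
    rw [h5, norm_neg]
    refine (ContinuousLinearMap.le_opNorm _ _).trans ?_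
    rw [norm_smul, mul_assoc]
    exact mul_le_mul_of_nonneg_right b4.le (by positivity)
  have k2 : ∀ s ∈ Icc (0 : ℝ) 1, fderiv ℂ g (u + (s : ℂ) • k) = fderiv ℂ g u := by
    have h6 : ∀ s ∈ Icc (0 : ℝ) 1, HasDerivAt (fun s : ℝ => fderiv ℂ g (u + (s : ℂ) • k)) 0 s := by
      intro s hs
      have h7 := der_line s (an_fd (hb (hmem s hs)).2)
      have h8 : fderiv ℂ (fderiv ℂ g) (u + (s : ℂ) • k) k = 0 := by
        have h9 : Hs g (u + (s : ℂ) • k) (t • v (u + (s : ℂ) • k)) = 0 := by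
          rw [map_smul, (hb (hmem s hs)).1.1.2.1, smul_zero]
        rw [sub_eq_zero.1 (k1 s hs)] at h9
        exact h9
      rwa [h8] at h7
    intro s hs
    have := constant_of_has_deriv_right_zero (fun s hs => (h6 s hs).continuousAt.continuousWithinAt)
      (fun s hs => (h6 s ⟨hs.1, hs.2.le⟩).hasDerivWithinAt) s hs
    simpa using this
  have h6 : ∀ s ∈ Icc (0 : ℝ) 1,
      HasDerivAt (fun s : ℝ => g (u + (s : ℂ) • k) - (s : ℂ) • fderiv ℂ g u k) 0 s := by
    intro s hs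
    have h7 := der_line s (hb (hmem s hs)).2
    rw [k2 s hs] at h7
    have h8 := h7.fun_sub ((Complex.ofRealCLM.hasDerivAt (x := s)).smul_const (fderiv ℂ g u k))
    simpa using h8
  have h9 := constant_of_has_deriv_right_zero (fun s hs => (h6 s hs).continuousAt.continuousWithinAt)
    (fun s hs => (h6 s ⟨hs.1, hs.2.le⟩).hasDerivWithinAt) 1 ⟨zero_le_one, le_refl 1⟩
  simp only [Complex.ofReal_one, one_smul, Complex.ofReal_zero, zero_smul, add_zero,
    sub_zero] at h9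
  rw [← h9, hk, map_smul, sub_add_cancel]

end Crest.Agent.X261.Uen.Dev
end
end

-- ▼ part X261/Uen/Core
section

/-!
X261 / Uen / Core (helper80): for a closed periodic set `Z` which is generically a finite union
of graphs, the kernel of the second fundamental form of a graph in `Z` consists of directions
tangent to the graph at every point.
-/

set_option autoImplicit false
set_option linter.unusedSectionVars false

open Set Filter Topology Metric Module

noncomputable section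

namespace Crest.Agent.X261.Uen.Core

open Crest.Agent.R281.Thn_280 Crest.Agent.X261.Uen.Thin Crest.Agent.X261.Uen.Dev

variable {X W : Type} [NormedAddCommGroup X] [NormedSpace ℂ X] [FiniteDimensional ℂ X]
  [NormedAddCommGroup W] [NormedSpace ℂ W] [FiniteDimensional ℂ W]

/-- preimage of a thin set under a map which is submersive somewhere -/
theorem sth_pre {Y : Type} [NormedAddCommGroup Y] [NormedSpace ℂ Y] [FiniteDimensional ℂ Y]
    {E : Set X} (hE : STh E) {N : Set Y} (hN : IsOpen N) (hNc : IsPreconnected N) {β : Y → X}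
    (hβ : AnalyticOnNhd ℂ β N) {y₀ : Y} (hy₀ : y₀ ∈ N)
    (hs : Function.Surjective (fderiv ℂ β y₀)) : STh {y | y ∈ N ∧ β y ∈ E} := by
  have : ProperSpace Y := FiniteDimensional.proper ℂ Y
  obtain ⟨m, hm, hm0, hms⟩ := Crest.Agent.R281.ThnM_280.exists_minor hβ hy₀ hs
  have h1 : STh {y | y ∈ N ∧ m y = 0} := by
    refine sth_zero hN hm fun z hz hcon => hm0 ?_
    exact hm.eqOn_zero_of_preconnected_of_eventuallyEq_zero hNc hz
      (hcon.mono fun w hw => not_not.1 hw) hy₀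
  have ho : IsOpen (N ∩ m ⁻¹' {0}ᶜ) :=
    hm.continuousOn.isOpen_inter_preimage hN isOpen_compl_singleton
  have h2 := hE.preimage ho (fun y hy => hβ y hy.1) fun y hy => hms y hy.1 hy.2
  refine (h1.union h2).mono ?_
  rintro y ⟨hy, hyE⟩
  by_cases h : m y = 0
  · exact Or.inl ⟨hy, h⟩
  · exact Or.inr ⟨⟨hy, h⟩, hyE⟩

variable {B : W →L[ℂ] X} {Z : Set W} {E : Set X} {g : X → W} {O : Set X}

theorem B_fderiv (hO : IsOpen O) (hg : AnalyticOnNhd ℂ g O) (hB : ∀ u ∈ O, B (g u) = u) {u : X}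
    (hu : u ∈ O) (a : X) : B (fderiv ℂ g u a) = a := by
  have h1 := B.hasFDerivAt.comp u (hg u hu).differentiableAt.hasFDerivAt
  have h2 : HasFDerivAt (B ∘ g) (ContinuousLinearMap.id ℂ X) u := by
    refine (hasFDerivAt_id u).congr_of_eventuallyEq ?_
    filter_upwards [hO.mem_nhds hu] with x hx using hB x hx
  exact congrArg (fun L : X →L[ℂ] X => L a) (h1.unique h2)

/-- small pieces of lines in `Z` extend to whole lines -/
theorem lines_mem (hZ : IsClosed Z) (hE : STh E) (hloc : ∀ p ∈ Z, B p ∉ E → LocG B Z p)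
    {U : Set X} (hU : IsOpen U) (hUc : Convex ℝ U) (hg : AnalyticOnNhd ℂ g U)
    (hB : ∀ u ∈ U, B (g u) = u) {w : X → W} (hw : AnalyticOnNhd ℂ w U)
    (h0 : ∀ u ∈ U, ∀ᶠ y in 𝓝 ((u, 0) : X × ℂ), g y.1 + y.2 • w y.1 ∈ Z) :
    ∀ u ∈ U, ∀ t : ℂ, g u + t • w u ∈ Z := by
  intro u₀ hu₀ t₀
  set ψ : X × ℂ → W := fun y => g y.1 + y.2 • w y.1 with hψ
  have hψa : ∀ y : X × ℂ, y.1 ∈ U → AnalyticAt ℂ ψ y := fun y hy =>
    (AnalyticAt.comp (f := Prod.fst) (hg _ hy) analyticAt_fst).add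
      (analyticAt_snd.smul (AnalyticAt.comp (f := Prod.fst) (hw _ hy) analyticAt_fst))
  have hN : IsOpen (U ×ˢ (univ : Set ℂ)) := hU.prod isOpen_univ
  have hβ : AnalyticOnNhd ℂ (fun y => B (ψ y)) (U ×ˢ (univ : Set ℂ)) := fun y hy =>
    (B.analyticAt _).comp (hψa y hy.1)
  have hs : Function.Surjective (fderiv ℂ (fun y => B (ψ y)) (u₀, 0)) := by
    intro a
    have h1 := (hβ (u₀, 0) ⟨hu₀, trivial⟩).differentiableAt.hasFDerivAt
    have h2 : HasFDerivAt (fun x : X => (x, (0 : ℂ))) (ContinuousLinearMap.inl ℂ X ℂ) u₀ :=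
      hasFDerivAt_prodMk_left u₀ 0
    have h3 := HasFDerivAt.comp (f := fun x : X => (x, (0 : ℂ))) u₀ h1 h2
    have h4 : HasFDerivAt ((fun y => B (ψ y)) ∘ fun x : X => (x, (0 : ℂ)))
        (ContinuousLinearMap.id ℂ X) u₀ := by
      refine (hasFDerivAt_id u₀).congr_of_eventuallyEq ?_
      filter_upwards [hU.mem_nhds hu₀] with x hx
      simp [hψ, hB x hx]
    exact ⟨(a, 0), congrArg (fun L : X →L[ℂ] X => L a) (h3.unique h4)⟩
  have hth := sth_pre hE hN (hUc.prod convex_univ).isPreconnected hβ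
    (y₀ := (u₀, 0)) ⟨hu₀, trivial⟩ hs
  have hd := dense_vert hth
  have h5 : ∀ x ∈ U, {t : ℂ | (x, t) ∈ {y | y ∈ U ×ˢ (univ : Set ℂ) ∧ B (ψ y) ∈ E}}.Countable →
      ψ (x, t₀) ∈ Z := by
    intro x hx hc
    refine line_ext (B := B) (ψ := ψ) (γ := fun t => (x, t)) hZ (by fun_prop)
      (fun t => hψa _ hx) (hc.mono ?_) (h0 x hx) t₀
    rintro t ⟨ht1, ht2⟩
    refine ⟨⟨hx, trivial⟩, ?_⟩
    by_contra hcon
    exact ht2 (hloc _ ht1 hcon)
  have hc : ContinuousAt (fun x : X => ψ (x, t₀)) u₀ :=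
    ContinuousAt.comp (f := fun x : X => (x, t₀)) (hψa (u₀, t₀) hu₀).continuousAt (by fun_prop)
  refine hZ.mem_of_frequently_of_tendsto ?_ hc
  have h6 := mem_closure_iff_frequently.1 (hd u₀)
  exact (h6.and_eventually (hU.mem_nhds hu₀)).mono fun x hx => h5 x hx.2 hx.1

/-- a direction `h` with `g U + ℝ h ⊆ Z` is tangent to the graph everywhere -/
theorem tangent_of_mem (hE : STh E) (hloc : ∀ p ∈ Z, B p ∉ E → LocG B Z p) (hO : IsOpen O)
    (hOc : IsPreconnected O) (hg : AnalyticOnNhd ℂ g O) (hB : ∀ u ∈ O, B (g u) = u)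
    {U : Set X} (hU : IsOpen U) (hne : U.Nonempty) (hUO : U ⊆ O) {h : W}
    (hh : ∀ u ∈ U, ∀ s : ℝ, g u + s • h ∈ Z) : ∀ u ∈ O, fderiv ℂ g u (B h) = h := by
  have : CompleteSpace W := FiniteDimensional.complete ℂ W
  have : ProperSpace X := FiniteDimensional.proper ℂ X
  borelize X
  obtain ⟨x₁, hx₁U, hx₁E⟩ := hE.dense_compl.inter_open_nonempty U hU hne
  have hp : g x₁ ∈ Z := by simpa using hh x₁ hx₁U 0
  obtain ⟨S, hS, ρ, hρ, hgS, hw⟩ := hloc _ hp (by rw [hB _ (hUO hx₁U)]; exact hx₁E)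
  set χ : X × ℝ → W := fun y => g y.1 + y.2 • h with hχ
  have hχc : ∀ y : X × ℝ, y.1 ∈ U → ContinuousAt χ y := fun y hy =>
    (ContinuousAt.comp (f := Prod.fst) (hg _ (hUO hy)).continuousAt continuousAt_fst).add
      (continuousAt_snd.smul continuousAt_const)
  have hχ0 : χ (x₁, 0) = g x₁ := by simp [hχ]
  have e1 : ∀ᶠ y in 𝓝 ((x₁, 0) : X × ℝ), y.1 ∈ U := continuousAt_fst.eventually (hU.mem_nhds hx₁U)
  have e2 : ∀ᶠ y in 𝓝 ((x₁, 0) : X × ℝ), χ y ∈ Z → ∃ g' ∈ S, χ y = g' (B (χ y)) :=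
    (hχc (x₁, 0) hx₁U).eventually (by rw [hχ0]; exact hw)
  have e3 : ∀ᶠ y in 𝓝 ((x₁, 0) : X × ℝ), B (χ y) ∈ ball (B (g x₁)) ρ :=
    (B.continuous.continuousAt.comp (hχc (x₁, 0) hx₁U)).preimage_mem_nhds
      (by change _ ∈ 𝓝 (B (χ (x₁, 0))); rw [hχ0]; exact ball_mem_nhds _ hρ)
  obtain ⟨Q, hQ1, hQo, hQy⟩ := _root_.eventually_nhds_iff.1 ((e1.and e2).and e3)
  obtain ⟨g', hg'S, Q', h1, h2, ⟨y₂, hy₂⟩, h4⟩ := exists_open_zero hS
    (fun g' y => χ y - g' (B (χ y))) hQo ⟨_, hQy⟩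
    (fun g' hg' y hy => ((hχc y (hQ1 y hy).1.1).sub (ContinuousAt.comp (g := g')
      (f := fun y => B (χ y)) ((hgS g' hg').1 _ (hQ1 y hy).2).continuousAt
      (B.continuous.continuousAt.comp (hχc y (hQ1 y hy).1.1)))).continuousWithinAt) (by
      intro y hy
      obtain ⟨g', hg', hgy⟩ := (hQ1 y hy).1.2 (hh _ (hQ1 y hy).1.1 _)
      exact ⟨g', hg', sub_eq_zero.2 hgy⟩)
  have hBχ : ∀ y : X × ℝ, y.1 ∈ U → B (χ y) = y.1 + (y.2 : ℂ) • B h := by
    intro y hy
    simp only [hχ, map_add, hB _ (hUO hy)]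
    rw [← Complex.coe_smul, map_smul]
  have h5 : ∀ y ∈ Q', g y.1 + (y.2 : ℂ) • h = g' (y.1 + (y.2 : ℂ) • B h) := by
    intro y hy
    rw [← hBχ y (hQ1 y (h1 hy)).1.1, ← sub_eq_zero.1 (h4 y hy), Complex.coe_smul]
  have h6 : ∀ y ∈ Q', fderiv ℂ g y.1 (B h) = h := by
    rintro ⟨x, s⟩ hy
    have hxU : x ∈ U := (hQ1 _ (h1 hy)).1.1
    have ha : AnalyticAt ℂ g' (x + (s : ℂ) • B h) := by
      have := (hgS g' hg'S).1 _ (hQ1 _ (h1 hy)).2
      rwa [hBχ _ hxU] at this
    have d1 : HasFDerivAt (fun x => g' (x + (s : ℂ) • B h)) (fderiv ℂ g' (x + (s : ℂ) • B h)) x := by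
      have := ha.differentiableAt.hasFDerivAt.comp x ((hasFDerivAt_id x).add_const ((s : ℂ) • B h))
      rw [ContinuousLinearMap.comp_id] at this
      exact this
    have d2 : HasFDerivAt (fun x => g' (x + (s : ℂ) • B h)) (fderiv ℂ g x) x := by
      refine ((hg x (hUO hxU)).differentiableAt.hasFDerivAt.add_const
        ((s : ℂ) • h)).congr_of_eventuallyEq ?_
      have : ∀ᶠ x' in 𝓝 x, (x', s) ∈ Q' :=
        (by fun_prop : Continuous fun x' : X => (x', s)).continuousAt.eventually (h2.mem_nhds hy)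
      filter_upwards [this] with x' hx' using (h5 _ hx').symm
    have d3 := der_line s ha
    have d4 : HasDerivAt (fun s : ℝ => g' (x + (s : ℂ) • B h)) h s := by
      have d5 : HasDerivAt (fun s : ℝ => g x + (s : ℂ) • h) h s := by
        have := ((Complex.ofRealCLM.hasDerivAt (x := s)).smul_const h).const_add (g x)
        simpa using this
      refine d5.congr_of_eventuallyEq ?_
      have : ∀ᶠ s' in 𝓝 s, (x, s') ∈ Q' :=
        (by fun_prop : Continuous fun s' : ℝ => (x, s')).continuousAt.eventually (h2.mem_nhds hy)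
      filter_upwards [this] with s' hs' using (h5 _ hs').symm
    change fderiv ℂ g x (B h) = h
    rw [d2.unique d1]
    exact d3.unique d4
  have h7 : AnalyticOnNhd ℂ (fun u => fderiv ℂ g u (B h) - h) O := fun u hu =>
    (an_apply (an_fd (hg u hu)) analyticAt_const).sub analyticAt_const
  have h8 := h7.eqOn_zero_of_preconnected_of_eventuallyEq_zero hOc
    (hUO (hQ1 _ (h1 hy₂)).1.1) (by
      have : ∀ᶠ x' in 𝓝 y₂.1, (x', y₂.2) ∈ Q' :=
        (by fun_prop : Continuous fun x' : X => (x', y₂.2)).continuousAt.eventually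
          (h2.mem_nhds hy₂)
      filter_upwards [this] with x' hx' using sub_eq_zero.2 (h6 _ hx'))
  exact fun u hu => sub_eq_zero.1 (h8 hu)

/-- **core of Ueno's theorem** -/
theorem core (hZ : IsClosed Z) {Λ : AddSubgroup W} [Countable Λ] {R : ℝ}
    (hR : ∀ w : W, ∃ l ∈ Λ, ‖w - l‖ ≤ R) (hper : ∀ z ∈ Z, ∀ l ∈ Λ, z + l ∈ Z) (hE : STh E)
    (hloc : ∀ p ∈ Z, B p ∉ E → LocG B Z p) (hO : IsOpen O) (hOc : IsPreconnected O)
    (hg : AnalyticOnNhd ℂ g O) (hgZ : ∀ u ∈ O, g u ∈ Z) (hB : ∀ u ∈ O, B (g u) = u) {u₁ : X}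
    (hu₁ : u₁ ∈ O) (hmax : ∀ u ∈ O, rk (Hs g u) ≤ rk (Hs g u₁)) {v₁ : X}
    (hv₁ : Hs g u₁ v₁ = 0) : ∀ u ∈ O, fderiv ℂ g u v₁ = fderiv ℂ g u₁ v₁ := by
  classical
  have : CompleteSpace X := FiniteDimensional.complete ℂ X
  have : CompleteSpace W := FiniteDimensional.complete ℂ W
  obtain ⟨v, hv, hev⟩ := exists_field hO hg hu₁ hmax hv₁
  have hst := straight (hg u₁ hu₁) hev
  have hc1 : ContinuousAt (fun y : X × ℂ => y.1 + y.2 • v y.1) (u₁, 0) := by
    have : ContinuousAt (fun y : X × ℂ => v y.1) (u₁, 0) :=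
      ContinuousAt.comp (f := Prod.fst) hev.self_of_nhds.1.continuousAt continuousAt_fst
    exact continuousAt_fst.add (continuousAt_snd.smul this)
  have hc2 : ∀ᶠ y in 𝓝 ((u₁, 0) : X × ℂ), y.1 + y.2 • v y.1 ∈ O :=
    hc1.preimage_mem_nhds (by simpa using hO.mem_nhds hu₁)
  set w : X → W := fun u => fderiv ℂ g u (v u) with hw
  have e1 : ∀ᶠ y in 𝓝 ((u₁, 0) : X × ℂ), g y.1 + y.2 • w y.1 ∈ Z := by
    filter_upwards [hst, hc2] with y a1 a2
    rw [← a1]; exact hgZ _ a2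
  have e2 : ∀ᶠ u in 𝓝 u₁, ∀ᶠ y in 𝓝 ((u, 0) : X × ℂ), g y.1 + y.2 • w y.1 ∈ Z :=
    (by fun_prop : Continuous fun u : X => (u, (0 : ℂ))).continuousAt.eventually e1.eventually_nhds
  obtain ⟨δ, hδ, hb⟩ := Metric.mem_nhds_iff.1 ((e2.and hev).and (hO.mem_nhds hu₁))
  have hwa : AnalyticOnNhd ℂ w (ball u₁ δ) := fun u hu =>
    an_apply (an_fd (hg u (hb hu).2)) (hb hu).1.2.1
  have hl := lines_mem hZ hE hloc isOpen_ball (convex_ball u₁ δ) (fun u hu => hg u (hb hu).2)
    (fun u hu => hB u (hb hu).2) hwa fun u hu => (hb hu).1.1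
  set H : Finset Λ → Submodule ℝ W := fun S => Submodule.span ℝ (Subtype.val '' (S : Set Λ))
    with hH
  set A : Finset Λ → Set X := fun S =>
    (closedBall u₁ (δ / 2) ∩ {u | w u ∈ H S ∧ ∀ h ∈ H S, g u + h ∈ Z}) ∪ (ball u₁ (δ / 2))ᶜ with hA
  have hsub : closedBall u₁ (δ / 2) ⊆ ball u₁ δ := closedBall_subset_ball (by linarith)
  have hAc : ∀ S, IsClosed (A S) := by
    intro S
    refine IsClosed.union ?_ isOpen_ball.isClosed_compl
    have hc : ContinuousOn (fun u => (w u, g u)) (closedBall u₁ (δ / 2)) :=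
      (hwa.continuousOn.mono hsub).prodMk
        (hg.continuousOn.mono fun u hu => (hb (hsub hu)).2)
    have hcl : IsClosed {q : W × W | q.1 ∈ H S ∧ ∀ h ∈ H S, q.2 + h ∈ Z} := by
      refine IsClosed.inter ((H S).closed_of_finiteDimensional.preimage continuous_fst) ?_
      have : {q : W × W | ∀ h ∈ H S, q.2 + h ∈ Z} = ⋂ h ∈ H S, {q : W × W | q.2 + h ∈ Z} := by
        ext q; simp
      change IsClosed {q : W × W | ∀ h ∈ H S, q.2 + h ∈ Z}
      rw [this]
      exact isClosed_biInter fun h _ => hZ.preimage (by fun_prop)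
    exact hc.preimage_isClosed_of_isClosed isClosed_closedBall hcl
  have hAu : ⋃ S, A S = univ := by
    refine eq_univ_of_forall fun u => ?_
    by_cases hu : u ∈ ball u₁ (δ / 2)
    · obtain ⟨S, h1, h2⟩ := Sub.exists_rat hR hZ hper (p := g u)
        ((Submodule.span ℂ {w u}).restrictScalars ℝ) (by
          intro x hx
          obtain ⟨t, rfl⟩ := Submodule.mem_span_singleton.1 hx
          exact hl u (hsub (ball_subset_closedBall hu)) t)
      exact mem_iUnion.2 ⟨S, Or.inl ⟨ball_subset_closedBall hu,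
        h1 (Submodule.mem_span_singleton_self (R := ℂ) (w u)), h2⟩⟩
    · exact mem_iUnion.2 ⟨∅, Or.inr hu⟩
  obtain ⟨u₂, hu₂, hu₂'⟩ := (dense_iUnion_interior_of_closed hAc hAu).inter_open_nonempty
    (ball u₁ (δ / 2)) isOpen_ball ⟨u₁, mem_ball_self (by linarith)⟩
  obtain ⟨S, hS⟩ := mem_iUnion.1 hu₂'
  set U := ball u₁ (δ / 2) ∩ interior (A S) with hU
  have hUo : IsOpen U := isOpen_ball.inter isOpen_interior
  have hUA : ∀ u ∈ U, w u ∈ H S ∧ ∀ h ∈ H S, g u + h ∈ Z := by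
    intro u hu
    rcases interior_subset hu.2 with h | h
    · exact h.2
    · exact (h hu.1).elim
  have hUb : U ⊆ ball u₁ δ := fun u hu => hsub (ball_subset_closedBall hu.1)
  have ht : ∀ h ∈ H S, ∀ u ∈ O, fderiv ℂ g u (B h) = h := fun h hh =>
    tangent_of_mem hE hloc hO hOc hg hB hUo ⟨u₂, hu₂, hS⟩ (fun u hu => (hb (hUb hu)).2)
      fun u hu s => (hUA u hu).2 _ ((H S).smul_mem s hh)
  intro u hu
  have h7 : AnalyticOnNhd ℂ (fun x => fderiv ℂ g u (B (w x)) - w x) (ball u₁ δ) := fun x hx =>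
    (((fderiv ℂ g u).analyticAt _).comp ((B.analyticAt _).comp (hwa x hx))).sub (hwa x hx)
  have h8 := h7.eqOn_zero_of_preconnected_of_eventuallyEq_zero (convex_ball u₁ δ).isPreconnected
    (hUb ⟨hu₂, hS⟩) (by
      filter_upwards [hUo.mem_nhds ⟨hu₂, hS⟩] with x hx
      exact sub_eq_zero.2 (ht _ (hUA x hx).1 u hu)) (mem_ball_self hδ)
  have h9 := sub_eq_zero.1 h8
  simp only [hw, hv] at h9
  rwa [B_fderiv hO hg hB hu₁] at h9

end Crest.Agent.X261.Uen.Core
end
end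

-- ▼ part X261/Uen/Glob
section

/-!
X261 / Uen / Glob (helper80): holomorphic maps `F : M → W` whose image is `F(K) + Λ`
(`K` compact, `Λ` discrete): the image is closed and generically a finite union of graphs.
-/

set_option autoImplicit false
set_option linter.unusedSectionVars false

open Set Filter Topology Metric Module

noncomputable section

namespace Crest.Agent.X261.Uen

open Crest.Agent.R281.Thn_280 Crest.Agent.X261.Uen.Thin Crest.Agent.X261.Uen.Dev
open Crest.Agent.R275.Geo Crest.Agent.R281.ThnM_280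

variable {n : ℕ} {M : Type} [TopologicalSpace M] {A : Atl n M}
  {W X : Type} [NormedAddCommGroup W] [NormedSpace ℂ W] [FiniteDimensional ℂ W]
  [NormedAddCommGroup X] [NormedSpace ℂ X] [FiniteDimensional ℂ X]

/-- holomorphic maps to a vector space -/
def HolV (A : Atl n M) (F : M → W) : Prop :=
  ∀ i, DifferentiableOn ℂ (fun z => F ((A.e i).symm z)) (A.e i).target

/-- the differential in the chart `i` -/
def dF (A : Atl n M) (i : A.ι) (F : M → W) (x : M) : Cn n →L[ℂ] W :=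
  fderiv ℂ (fun z => F ((A.e i).symm z)) (A.e i x)

variable {F : M → W} {i j : A.ι} {x : M}

theorem HolV.an (h : HolV A F) (i : A.ι) :
    AnalyticOnNhd ℂ (fun z => F ((A.e i).symm z)) (A.e i).target := by
  have : CompleteSpace W := FiniteDimensional.complete ℂ W
  exact Crest.Agent.R266.SCV.analyticOnNhd_of_differentiableOn (A.e i).open_target (h i)

theorem HolV.anAt (h : HolV A F) (hx : x ∈ (A.e i).source) :
    AnalyticAt ℂ (fun z => F ((A.e i).symm z)) (A.e i x) := h.an i _ ((A.e i).map_source hx)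

theorem HolV.continuous (h : HolV A F) : Continuous F := by
  rw [continuous_iff_continuousAt]
  intro x
  obtain ⟨i, hi⟩ := A.cover x
  have h2 : ContinuousAt (fun y => F ((A.e i).symm (A.e i y))) x :=
    ContinuousAt.comp (g := fun z => F ((A.e i).symm z)) (h.anAt hi).continuousAt
      ((A.e i).continuousAt hi)
  refine h2.congr ?_
  filter_upwards [(A.e i).open_source.mem_nhds hi] with y hy
  rw [(A.e i).left_inv hy]

theorem HolV.clm (h : HolV A F) (B : W →L[ℂ] X) : HolV A fun x => B (F x) := fun i =>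
  B.differentiable.comp_differentiableOn (h i)

theorem HolV.dF_clm (h : HolV A F) (B : W →L[ℂ] X) (hx : x ∈ (A.e i).source) :
    dF A i (fun x => B (F x)) x = B.comp (dF A i F x) :=
  (B.hasFDerivAt.comp _ (h.anAt hx).differentiableAt.hasFDerivAt).fderiv

theorem HolV.dF_chg (h : HolV A F) (hi : x ∈ (A.e i).source) (hj : x ∈ (A.e j).source) :
    dF A i F x = (dF A j F x).comp (fderiv ℂ (fun z => A.e j ((A.e i).symm z)) (A.e i x)) := by
  have ho : IsOpen (A.ov i j) := (A.e i).isOpen_inter_preimage_symm (A.e j).open_source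
  have hz : A.e i x ∈ A.ov i j := ⟨(A.e i).map_source hi, by rwa [(A.e i).left_inv hi]⟩
  have h1 := ((A.holo i j).differentiableAt (ho.mem_nhds hz)).hasFDerivAt
  have h2 : HasFDerivAt (fun z => F ((A.e j).symm z)) (dF A j F x)
      (A.e j ((A.e i).symm (A.e i x))) := by
    rw [(A.e i).left_inv hi]; exact (h.anAt hj).differentiableAt.hasFDerivAt
  refine ((HasFDerivAt.comp (f := fun z => A.e j ((A.e i).symm z)) _ h2 h1).congr_of_eventuallyEq
    ?_).fderiv
  filter_upwards [ho.mem_nhds hz] with z hz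
  simp only [Function.comp, (A.e j).left_inv hz.2]

theorem HolV.range_chg (h : HolV A F) (hi : x ∈ (A.e i).source) (hj : x ∈ (A.e j).source) :
    LinearMap.range (dF A i F x : Cn n →ₗ[ℂ] W) = LinearMap.range (dF A j F x : Cn n →ₗ[ℂ] W) := by
  have : ∀ {i j : A.ι}, x ∈ (A.e i).source → x ∈ (A.e j).source →
      LinearMap.range (dF A i F x : Cn n →ₗ[ℂ] W) ≤ LinearMap.range (dF A j F x : Cn n →ₗ[ℂ] W) := by
    rintro i j hi hj _ ⟨v, rfl⟩
    exact ⟨_, (congrArg (fun L : Cn n →L[ℂ] W => L v) (h.dF_chg hi hj)).symm⟩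
  exact le_antisymm (this hi hj) (this hj hi)

/-- the image of the differential -/
def Tg (A : Atl n M) (F : M → W) (x : M) : Submodule ℂ W :=
  LinearMap.range (dF A (A.cover x).choose F x : Cn n →ₗ[ℂ] W)

theorem HolV.tg_eq (h : HolV A F) (hi : x ∈ (A.e i).source) :
    Tg A F x = LinearMap.range (dF A i F x : Cn n →ₗ[ℂ] W) :=
  h.range_chg (A.cover x).choose_spec hi

theorem HolV.tg_clm (h : HolV A F) (B : W →L[ℂ] X) (x : M) :
    Tg A (fun x => B (F x)) x = (Tg A F x).map (B : W →ₗ[ℂ] X) := by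
  unfold Tg
  rw [h.dF_clm B (A.cover x).choose_spec, ← LinearMap.range_comp]
  rfl

theorem finrank_tg_le (F : M → W) (x : M) : finrank ℂ (Tg A F x) ≤ n := by
  have := LinearMap.finrank_range_le (dF A (A.cover x).choose F x : Cn n →ₗ[ℂ] W)
  rw [finrank_euclideanSpace, Fintype.card_fin] at this
  exact this

theorem dF_symm (F : M → W) {z : Cn n} (hz : z ∈ (A.e i).target) :
    dF A i F ((A.e i).symm z) = fderiv ℂ (fun z => F ((A.e i).symm z)) z := by
  unfold dF; rw [(A.e i).right_inv hz]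

/-- neighbourhoods in a chart -/
theorem ev_chart (hi : x ∈ (A.e i).source) {P : M → Prop}
    (h : ∀ᶠ z in 𝓝 (A.e i x), P ((A.e i).symm z)) : ∀ᶠ y in 𝓝 x, P y := by
  filter_upwards [((A.e i).continuousAt hi).eventually h, (A.e i).open_source.mem_nhds hi]
    with y h1 h2
  rwa [(A.e i).left_inv h2] at h1

/-- local graph at a point where `B ∘ F` is submersive -/
theorem HolV.graph (h : HolV A F) (B : W →L[ℂ] X) (hr : ∀ y, finrank ℂ (Tg A F y) ≤ finrank ℂ X)
    (hs : (Tg A F x).map (B : W →ₗ[ℂ] X) = ⊤) :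
    ∃ ρ > 0, ∃ (g : X → W) (σ : X → M), AnalyticOnNhd ℂ g (ball (B (F x)) ρ) ∧ σ (B (F x)) = x ∧
      ContinuousOn σ (ball (B (F x)) ρ) ∧
      (∀ u ∈ ball (B (F x)) ρ, g u = F (σ u) ∧ B (g u) = u ∧
        LinearMap.range (fderiv ℂ g u : X →ₗ[ℂ] W) = Tg A F (σ u)) ∧
      ∀ᶠ y in 𝓝 x, F y = g (B (F y)) := by
  obtain ⟨i, hi⟩ := A.cover x
  obtain ⟨ρ, hρ, σ, h1, h2, h3, h4⟩ := locGraph (A.e i).open_target (h.an i)
    ((A.e i).map_source hi) B (fun u => by
      have hu : u ∈ (Tg A F x).map (B : W →ₗ[ℂ] X) := by rw [hs]; trivial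
      rw [h.tg_eq hi] at hu
      obtain ⟨_, ⟨v, rfl⟩, hv⟩ := hu
      exact ⟨v, hv⟩) (fun z hz => by
      have := hr ((A.e i).symm z)
      rwa [h.tg_eq ((A.e i).map_target hz), dF_symm F hz] at this)
  simp only [(A.e i).left_inv hi] at h1 h2 h3
  have hg : AnalyticOnNhd ℂ (fun u => F ((A.e i).symm (σ u))) (ball (B (F x)) ρ) := fun u hu =>
    AnalyticAt.comp (g := fun z => F ((A.e i).symm z)) (h.an i _ (h3 u hu).1) (h1 u hu)
  refine ⟨ρ, hρ, fun u => F ((A.e i).symm (σ u)), fun u => (A.e i).symm (σ u), hg,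
    by simp only [h2, (A.e i).left_inv hi],
    (A.e i).continuousOn_symm.comp h1.continuousOn fun u hu => (h3 u hu).1,
    fun u hu => ⟨rfl, (h3 u hu).2, ?_⟩, ev_chart hi (P := fun y => F y =
      F ((A.e i).symm (σ (B (F y))))) h4⟩
  refine Submodule.eq_of_le_of_finrank_le ?_ ((hr _).trans ?_)
  · rw [h.tg_eq ((A.e i).map_target (h3 u hu).1), dF_symm F (h3 u hu).1]
    rintro _ ⟨v, rfl⟩
    have h5 := (HasFDerivAt.comp (g := fun z => F ((A.e i).symm z)) u
      (h.an i _ (h3 u hu).1).differentiableAt.hasFDerivAt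
      (h1 u hu).differentiableAt.hasFDerivAt).fderiv
    exact ⟨_, (congrArg (fun L : X →L[ℂ] W => L v) h5).symm⟩
  · exact le_rk (B := B) fun a =>
      ⟨a, Core.B_fderiv isOpen_ball hg (fun u hu => (h3 u hu).2) hu a⟩

/-- the image of `F` is `F(K) + Λ` -/
structure Per (F : M → W) (K : Set M) (Λ : AddSubgroup W) : Prop where
  cpt : IsCompact K
  fin : ∀ R : ℝ, {l | l ∈ Λ ∧ ‖l‖ ≤ R}.Finite
  cov : ∀ x, ∃ k ∈ K, ∃ l ∈ Λ, F x = F k + l
  per : ∀ x, ∀ l ∈ Λ, ∃ y, F y = F x + l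

variable {K : Set M} {Λ : AddSubgroup W}

theorem countable_of_fin (h : ∀ R : ℝ, {l | l ∈ Λ ∧ ‖l‖ ≤ R}.Finite) : Countable Λ := by
  have h1 : (Λ : Set W).Countable := by
    refine (countable_iUnion fun k : ℕ => (h k).countable).mono fun l hl => ?_
    obtain ⟨k, hk⟩ := exists_nat_ge ‖l‖
    exact mem_iUnion.2 ⟨k, hl, hk⟩
  exact h1.to_subtype

/-- compact plus discrete: near `p` only finitely many translates matter -/
theorem loc_fin (h : ∀ R : ℝ, {l | l ∈ Λ ∧ ‖l‖ ≤ R}.Finite) {C : Set W} (hC : IsCompact C)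
    (p : W) : ∃ T : Set W, T.Finite ∧ T ⊆ Λ ∧
      ∀ᶠ w in 𝓝 p, ∀ c ∈ C, ∀ l ∈ Λ, w = c + l → l ∈ T := by
  obtain ⟨R, hR⟩ := hC.isBounded.exists_norm_le
  refine ⟨_, h (‖p‖ + 1 + R), fun l hl => hl.1, ?_⟩
  filter_upwards [ball_mem_nhds p one_pos] with w hw c hc l hl hwl
  refine ⟨hl, ?_⟩
  have h1 : l = p + (w - p) - c := by rw [hwl]; abel
  rw [mem_ball, dist_eq_norm] at hw
  rw [h1]
  linarith [norm_sub_le (p + (w - p)) c, norm_add_le p (w - p), hR c hc]

theorem isClosed_add (h : ∀ R : ℝ, {l | l ∈ Λ ∧ ‖l‖ ≤ R}.Finite) {C : Set W} (hC : IsCompact C) :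
    IsClosed {w | ∃ c ∈ C, ∃ l ∈ Λ, w = c + l} := by
  refine isClosed_of_closure_subset fun p hp => ?_
  obtain ⟨T, hT, hTΛ, hev⟩ := loc_fin h hC p
  have h1 : IsClosed (⋃ l ∈ T, (fun c => c + l) '' C) :=
    hT.isClosed_biUnion fun l _ => (hC.image (by fun_prop)).isClosed
  have h2 : p ∈ closure (⋃ l ∈ T, (fun c => c + l) '' C) := by
    rw [mem_closure_iff_frequently] at hp ⊢
    refine (hp.and_eventually hev).mono ?_
    rintro w ⟨⟨c, hc, l, hl, hw⟩, h3⟩
    exact mem_iUnion₂.2 ⟨l, h3 c hc l hl hw, c, hc, hw.symm⟩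
  obtain ⟨l, hl, c, hc, hw⟩ := mem_iUnion₂.1 (h1.closure_subset h2)
  exact ⟨c, hc, l, hTΛ hl, hw.symm⟩

theorem Per.add_mem (P : Per F K Λ) : ∀ z ∈ range F, ∀ l ∈ Λ, z + l ∈ range F := by
  rintro _ ⟨x, rfl⟩ l hl
  exact P.per x l hl

theorem Per.isClosed (P : Per F K Λ) (h : Continuous F) : IsClosed (range F) := by
  have h1 : range F = {w | ∃ c ∈ F '' K, ∃ l ∈ Λ, w = c + l} := by
    ext w
    constructor
    · rintro ⟨x, rfl⟩
      obtain ⟨k, hk, l, hl, e⟩ := P.cov x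
      exact ⟨_, ⟨k, hk, rfl⟩, l, hl, e⟩
    · rintro ⟨_, ⟨k, -, rfl⟩, l, hl, rfl⟩
      exact P.per k l hl
  rw [h1]
  exact isClosed_add P.fin (P.cpt.image h)

theorem sth_transl {E : Set X} (hE : STh E) (c : X) : STh {u | u - c ∈ E} := by
  refine (hE.preimage isOpen_univ (F := fun u => u - c) (fun u _ => by fun_prop) fun u _ => ?_).mono
    fun u hu => ⟨trivial, hu⟩
  have h : HasFDerivAt (fun u : X => u - c) (ContinuousLinearMap.id ℂ X) u :=
    (hasFDerivAt_id u).sub_const c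
  rw [h.fderiv]
  exact Function.surjective_id

/-- critical values on a compact set -/
theorem HolV.sth_crit (h : HolV A F) (hK : IsCompact K) : STh (F '' {k | k ∈ K ∧ Tg A F k ≠ ⊤}) := by
  obtain ⟨t, -, ht⟩ := hK.elim_nhds_subcover (fun x => (A.e (A.cover x).choose).source)
    fun x _ => (A.e _).open_source.mem_nhds (A.cover x).choose_spec
  refine (sth_iUnion fun p : t => sard (A.e (A.cover (p : M)).choose).open_target
    (h.an (A.cover (p : M)).choose)).mono ?_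
  rintro _ ⟨k, ⟨hk, hk'⟩, rfl⟩
  obtain ⟨p, hp, hkp⟩ := mem_iUnion₂.1 (ht hk)
  refine mem_iUnion.2 ⟨⟨p, hp⟩, _, ⟨(A.e _).map_source hkp, fun hs => hk' ?_⟩,
    by simp only [(A.e _).left_inv hkp]⟩
  rw [h.tg_eq hkp, LinearMap.range_eq_top]
  exact hs

/-- the bad values of `B ∘ F` -/
def Bad (A : Atl n M) (F : M → W) (K : Set M) (Λ : AddSubgroup W) (B : W →L[ℂ] X) : Set X :=
  {u | ∃ k ∈ K, ∃ l ∈ Λ, (Tg A F k).map (B : W →ₗ[ℂ] X) ≠ ⊤ ∧ u = B (F k + l)}

theorem Per.sth_bad (P : Per F K Λ) (h : HolV A F) (B : W →L[ℂ] X) : STh (Bad A F K Λ B) := by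
  have := countable_of_fin P.fin
  refine (sth_iUnion fun l : Λ => sth_transl ((h.clm B).sth_crit P.cpt) (B l)).mono ?_
  rintro _ ⟨k, hk, l, hl, h1, rfl⟩
  exact mem_iUnion.2 ⟨⟨l, hl⟩, k, ⟨hk, by rwa [h.tg_clm]⟩, by simp⟩

theorem exists_pos_le {κ : Type*} {T : Set κ} (hT : T.Finite) (ρ : κ → ℝ) (h : ∀ l ∈ T, 0 < ρ l) :
    ∃ ρ₀ > 0, ∀ l ∈ T, ρ₀ ≤ ρ l := by
  have h1 : ∀ᶠ t in 𝓝[>] (0 : ℝ), ∀ l ∈ T, t ≤ ρ l := (Filter.eventually_all_finite hT).2
    fun l hl => mem_nhdsWithin_of_mem_nhds (Iic_mem_nhds (h l hl))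
  obtain ⟨t, h2, h3⟩ := (h1.and self_mem_nhdsWithin).exists
  exact ⟨t, h3, h2⟩

theorem Per.locG (P : Per F K Λ) (h : HolV A F) (B : W →L[ℂ] X)
    (hr : ∀ y, finrank ℂ (Tg A F y) ≤ finrank ℂ X) {p : W} (hp : B p ∉ Bad A F K Λ B) :
    LocG B (range F) p := by
  classical
  have hFc := h.continuous
  -- one translate
  have key : ∀ l ∈ Λ, ∃ S : Set (X → W), S.Finite ∧ ∃ ρ > 0, (∀ g ∈ S,
      AnalyticOnNhd ℂ g (ball (B p) ρ) ∧ ∀ u ∈ ball (B p) ρ, g u ∈ range F ∧ B (g u) = u) ∧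
      ∀ᶠ w in 𝓝 p, ∀ k ∈ K, w = F k + l → ∃ g ∈ S, w = g (B w) := by
    intro l hl
    set Kl : Set M := K ∩ {k | F k + l = p} with hKl
    have hKlc : IsCompact Kl := P.cpt.inter_right (isClosed_eq (by fun_prop) continuous_const)
    have h1 : ∀ k ∈ Kl, ∃ ρ > 0, ∃ g : X → W, (AnalyticOnNhd ℂ g (ball (B p) ρ) ∧
        ∀ u ∈ ball (B p) ρ, g u ∈ range F ∧ B (g u) = u) ∧
        ∀ᶠ y in 𝓝 k, F y + l = g (B (F y + l)) := by
      rintro k ⟨hk, hkp⟩
      have hkp' : F k + l = p := hkp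
      obtain ⟨ρ, hρ, g, σ, a1, -, -, a3, a4⟩ := h.graph (x := k) B hr (by
        by_contra hcon
        exact hp ⟨k, hk, l, hl, hcon, by rw [hkp']⟩)
      have hm : ∀ u ∈ ball (B p) ρ, u - B l ∈ ball (B (F k)) ρ := by
        intro u hu
        rw [mem_ball, dist_eq_norm] at hu ⊢
        rwa [← hkp', map_add, add_comm, ← sub_sub] at hu
      refine ⟨ρ, hρ, fun u => g (u - B l) + l, ⟨fun u hu => ?_, fun u hu => ⟨?_, ?_⟩⟩, ?_⟩
      · exact (AnalyticAt.comp (g := g) (f := fun u => u - B l) (a1 _ (hm u hu))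
          (by fun_prop)).add analyticAt_const
      · exact P.add_mem _ ⟨_, (a3 _ (hm u hu)).1.symm⟩ l hl
      · rw [map_add, (a3 _ (hm u hu)).2.1, sub_add_cancel]
      · filter_upwards [a4] with y hy
        rw [map_add, add_sub_cancel_right, ← hy]
    choose! ρ hρ g hg hev using h1
    obtain ⟨t, htK, ht⟩ := hKlc.elim_nhds_subcover
      (fun k => interior {y | F y + l = g k (B (F y + l))})
      fun k hk => interior_mem_nhds.2 (hev k hk)
    obtain ⟨ρ₀, hρ₀, hρ₀'⟩ := exists_pos_le t.finite_toSet ρ fun k hk => hρ k (htK k hk)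
    refine ⟨g '' t, t.finite_toSet.image _, ρ₀, hρ₀, ?_, ?_⟩
    · rintro _ ⟨k, hk, rfl⟩
      have hsub := ball_subset_ball (x := B p) (hρ₀' k hk)
      exact ⟨(hg k (htK k hk)).1.mono hsub, fun u hu => (hg k (htK k hk)).2 u (hsub hu)⟩
    · set K' : Set M := K \ ⋃ k ∈ t, interior {y | F y + l = g k (B (F y + l))} with hK'
      have hK'c : IsCompact ((fun k => F k + l) '' K') :=
        (P.cpt.diff (isOpen_biUnion fun _ _ => isOpen_interior)).image (by fun_prop)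
      have hpK : p ∉ (fun k => F k + l) '' K' := by
        rintro ⟨k, hk, hkp⟩
        exact hk.2 (ht ⟨hk.1, hkp⟩)
      filter_upwards [hK'c.isClosed.isOpen_compl.mem_nhds hpK] with w hw k hk hwk
      have h3 : k ∈ ⋃ k ∈ t, interior {y | F y + l = g k (B (F y + l))} := by
        by_contra hcon
        exact hw ⟨k, ⟨hk, hcon⟩, hwk.symm⟩
      obtain ⟨k', hk', hkk'⟩ := mem_iUnion₂.1 h3
      refine ⟨g k', ⟨k', hk', rfl⟩, ?_⟩
      rw [hwk]
      exact interior_subset (s := {y | F y + l = g k' (B (F y + l))}) hkk'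
  choose! S hS ρ hρ hg hev using key
  obtain ⟨T, hT, hTΛ, hTev⟩ := loc_fin P.fin (P.cpt.image hFc) p
  obtain ⟨ρ₀, hρ₀, hρ₀'⟩ := exists_pos_le hT ρ fun l hl => hρ l (hTΛ hl)
  refine ⟨⋃ l ∈ T, S l, hT.biUnion fun l hl => hS l (hTΛ hl), ρ₀, hρ₀, ?_, ?_⟩
  · intro g hgS
    obtain ⟨l, hl, hgl⟩ := mem_iUnion₂.1 hgS
    have hsub := ball_subset_ball (x := B p) (hρ₀' l hl)
    exact ⟨(hg l (hTΛ hl) g hgl).1.mono hsub, fun u hu => (hg l (hTΛ hl) g hgl).2 u (hsub hu)⟩
  · filter_upwards [hTev, (Filter.eventually_all_finite hT).2 fun l hl => hev l (hTΛ hl)]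
      with w h1 h2
    rintro ⟨x, rfl⟩
    obtain ⟨k, hk, l, hl, e⟩ := P.cov x
    have hlT := h1 _ ⟨k, hk, rfl⟩ l hl e
    obtain ⟨g, hg1, hg2⟩ := h2 l hlT k hk e
    exact ⟨g, mem_iUnion₂.2 ⟨l, hlT, hg1⟩, hg2⟩

/-- a map which is submersive at one point is onto -/
theorem Per.surjective (P : Per F K Λ) (h : HolV A F) (hx : Tg A F x = ⊤) :
    Function.Surjective F := by
  have hr : ∀ y, finrank ℂ (Tg A F y) ≤ finrank ℂ W := fun y => Submodule.finrank_le _
  have hZ := P.isClosed h.continuous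
  obtain ⟨ρ, hρ, g, σ, -, -, -, a3, -⟩ := h.graph (x := x) (ContinuousLinearMap.id ℂ W) hr
    (by rw [hx]; simp)
  have h0 : ∀ᶠ y in 𝓝 (F x), y ∈ range F := by
    filter_upwards [ball_mem_nhds (F x) hρ] with u hu
    exact ⟨σ u, (a3 u hu).1.symm.trans (a3 u hu).2.1⟩
  have hd := (P.sth_bad h (ContinuousLinearMap.id ℂ W)).dense_line (F x)
  have h1 : {v : W | {t : ℂ | F x + t • v ∈ Bad A F K Λ (ContinuousLinearMap.id ℂ W)}.Countable} ⊆
      (fun v => F x + v) ⁻¹' range F := by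
    intro v hv
    have h2 := line_ext (B := ContinuousLinearMap.id ℂ W) (ψ := id) (γ := fun t : ℂ => F x + t • v)
      hZ (by fun_prop) (fun _ => analyticAt_id) (Set.Countable.mono ?_ hv) (by simpa using h0) 1
    · simpa using h2
    · rintro t ⟨-, ht⟩
      by_contra hcon
      exact ht (P.locG h _ hr hcon)
  intro w
  have h3 := closure_minimal h1 (hZ.preimage (by fun_prop)) (hd (w - F x))
  simpa using h3

end Crest.Agent.X261.Uen
end
end

-- ▼ part X261/Uen/Gen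
section

/-!
X261 / Uen / Gen (helper80): Ueno's theorem on the Gauss map, for a holomorphic map with image
`F(K) + Λ` on a connected manifold.
-/

set_option autoImplicit false
set_option linter.unusedSectionVars false

open Set Filter Topology Metric Module

noncomputable section

namespace Crest.Agent.X261.Uen

open Crest.Agent.R281.Thn_280 Crest.Agent.X261.Uen.Thin Crest.Agent.X261.Uen.Dev
open Crest.Agent.R275.Geo Crest.Agent.R281.ThnM_280

variable {n : ℕ} {M : Type} [TopologicalSpace M] {A : Atl n M}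
  {W X : Type} [NormedAddCommGroup W] [NormedSpace ℂ W] [FiniteDimensional ℂ W]
  [NormedAddCommGroup X] [NormedSpace ℂ X] [FiniteDimensional ℂ X]

/-! ### linear algebra -/

theorem exists_onto {T : Submodule ℂ W} (h : finrank ℂ X ≤ finrank ℂ T) :
    ∃ B : W →L[ℂ] X, T.map (B : W →ₗ[ℂ] X) = ⊤ := by
  obtain ⟨j, hj⟩ := finrank_le_iff_exists_linearMap.1 h
  obtain ⟨g, hg⟩ := j.exists_leftInverse_of_injective (LinearMap.ker_eq_bot.2 hj)
  obtain ⟨B, hB⟩ := g.exists_extend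
  refine ⟨LinearMap.toContinuousLinearMap B, eq_top_iff.2 fun x _ => ⟨j x, (j x).2, ?_⟩⟩
  exact (LinearMap.congr_fun hB (j x)).trans (LinearMap.congr_fun hg x)

theorem fr_map (P : W →ₗ[ℂ] X) (T : Submodule ℂ W) :
    finrank ℂ (T.map P) + finrank ℂ (T ⊓ LinearMap.ker P : Submodule ℂ W) = finrank ℂ T := by
  have h := (P.domRestrict T).finrank_range_add_finrank_ker
  rw [LinearMap.range_domRestrict, LinearMap.ker_domRestrict] at h
  rw [← h, ← Submodule.finrank_map_subtype_eq T (Submodule.comap T.subtype (LinearMap.ker P)),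
    Submodule.map_comap_subtype]

theorem exists_proj (D : Submodule ℂ W) :
    ∃ P : W →L[ℂ] W, LinearMap.ker (P : W →ₗ[ℂ] W) = D ∧ ∀ w, P (P w) = P w := by
  obtain ⟨C, hC⟩ := D.exists_isCompl
  refine ⟨LinearMap.toContinuousLinearMap (C.subtype ∘ₗ Submodule.projectionOnto C D hC.symm),
    ?_, fun w => ?_⟩
  · ext w
    change ((Submodule.projectionOnto C D hC.symm w : C) : W) = 0 ↔ _
    rw [Submodule.coe_eq_zero, ← LinearMap.mem_ker, Submodule.ker_projectionOnto]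
  · change ((Submodule.projectionOnto C D hC.symm
      ((Submodule.projectionOnto C D hC.symm w : C) : W) : C) : W) = _
    rw [Submodule.projectionOnto_apply_left]; rfl

theorem exists_quot (D : Submodule ℂ X) {p : ℕ} (hp : p + finrank ℂ D = finrank ℂ X) :
    ∃ (Q : X →L[ℂ] (Fin p → ℂ)) (R : (Fin p → ℂ) →L[ℂ] X), (∀ c, Q (R c) = c) ∧
      ∀ a, Q a = 0 ↔ a ∈ D := by
  have h1 : finrank ℂ (X ⧸ D) = finrank ℂ (Fin p → ℂ) := by
    have := D.finrank_quotient_add_finrank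
    simp only [finrank_fintype_fun_eq_card, Fintype.card_fin]
    omega
  set e := LinearEquiv.ofFinrankEq _ _ h1 with he
  obtain ⟨R, hR⟩ := ((e : (X ⧸ D) →ₗ[ℂ] (Fin p → ℂ)) ∘ₗ D.mkQ).exists_rightInverse_of_surjective
    (LinearMap.range_eq_top.2 (e.surjective.comp D.mkQ_surjective))
  refine ⟨LinearMap.toContinuousLinearMap ((e : (X ⧸ D) →ₗ[ℂ] (Fin p → ℂ)) ∘ₗ D.mkQ),
    LinearMap.toContinuousLinearMap R, fun c => LinearMap.congr_fun hR c, fun a => ?_⟩
  change e (D.mkQ a) = 0 ↔ _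
  rw [e.map_eq_zero_iff, Submodule.mkQ_apply, Submodule.Quotient.mk_eq_zero]

theorem exists_indep {κ : Type*} (φ : κ → X →L[ℂ] ℂ) (D : Submodule ℂ X) {p : ℕ}
    (hp : p + finrank ℂ D = finrank ℂ X) (h : ∀ a, (∀ k, φ k a = 0) → a ∈ D) :
    ∃ c : Fin p → κ, LinearIndependent ℂ fun k => φ (c k) := by
  set ψ : κ → Module.Dual ℂ X := fun k => (φ k : X →ₗ[ℂ] ℂ) with hψ
  have h1 := Subspace.finrank_add_finrank_dualCoannihilator_eq (Submodule.span ℂ (range ψ))
  have h2 : (Submodule.span ℂ (range ψ)).dualCoannihilator ≤ D := fun a ha =>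
    h a fun k => (Submodule.mem_dualCoannihilator a).1 ha _ (Submodule.subset_span ⟨k, rfl⟩)
  have h3 : p ≤ finrank ℂ (Submodule.span ℂ (range ψ)) := by
    have := Submodule.finrank_mono h2
    omega
  obtain ⟨f, hf, -, hli⟩ := Submodule.exists_fun_fin_finrank_span_eq ℂ (range ψ)
  choose c hc using hf
  refine ⟨fun k => c (Fin.castLE h3 k), LinearIndependent.of_comp (ContinuousLinearMap.coeLM ℂ) ?_⟩
  have h4 := hli.comp (Fin.castLE h3) (Fin.castLE_injective h3)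
  have e : (⇑(ContinuousLinearMap.coeLM ℂ) ∘ fun k => φ (c (Fin.castLE h3 k))) =
      f ∘ Fin.castLE h3 := funext fun k => hc _
  rw [e]; exact h4

theorem indep_comp {p : ℕ} {V : Type} [NormedAddCommGroup V] [NormedSpace ℂ V]
    {φ : Fin p → X →L[ℂ] ℂ} (h : LinearIndependent ℂ φ) {T : V →L[ℂ] X}
    (hT : Function.Surjective T) : LinearIndependent ℂ fun k => (φ k).comp T := by
  rw [Fintype.linearIndependent_iff] at h ⊢
  intro c hc
  refine h c (ContinuousLinearMap.ext fun a => ?_)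
  obtain ⟨v, rfl⟩ := hT a
  have := congrArg (fun L : V →L[ℂ] ℂ => L v) hc
  simpa using this

theorem indep_proj (p : ℕ) : LinearIndependent ℂ fun a : Fin p =>
    (ContinuousLinearMap.proj a : (Fin p → ℂ) →L[ℂ] ℂ) := by
  rw [Fintype.linearIndependent_iff]
  intro c hc a
  have := congrArg (fun L : (Fin p → ℂ) →L[ℂ] ℂ => L (Pi.single a 1)) hc
  simpa [Pi.single_apply] using this

/-! ### ranks -/

variable {F : M → W} {i : A.ι} {x : M}

theorem HolV.not_crit {m : ℕ} {y : M → Cn m} (h : HolV A y) : x ∉ Crit A univ y ↔ Tg A y x = ⊤ := by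
  constructor
  · intro hc
    exact LinearMap.range_eq_top.2 (surj_of_not_crit (mem_univ x) hc (A.cover x).choose_spec)
  · rintro ht ⟨-, i, hi, hs⟩
    rw [h.tg_eq hi] at ht
    exact hs (LinearMap.range_eq_top.1 ht)

theorem HolV.on {m : ℕ} {y : M → Cn m} (h : HolV A y) (i : A.ι) :
    DifferentiableOn ℂ (fun z => y ((A.e i).symm z)) ((A.e i).target ∩ (A.e i).symm ⁻¹' univ) :=
  (h i).mono inter_subset_left

theorem le_of_map_top {T : Submodule ℂ W} {B : W →L[ℂ] X} (h : T.map (B : W →ₗ[ℂ] X) = ⊤) :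
    finrank ℂ X ≤ finrank ℂ T := by
  have := Submodule.finrank_map_le (B : W →ₗ[ℂ] X) T
  rwa [h, finrank_top] at this

/-- lower semicontinuity of the rank -/
theorem HolV.ev_le (h : HolV A F) {m : ℕ} (hm : m ≤ finrank ℂ (Tg A F x)) :
    ∀ᶠ y in 𝓝 x, m ≤ finrank ℂ (Tg A F y) := by
  obtain ⟨B, hB⟩ := exists_onto (X := Cn m) (T := Tg A F x) (by simpa using hm)
  have h1 := isOpen_regular (A := A) (y := fun x => B (F x)) isOpen_univ (h.clm B).on
  filter_upwards [h1.mem_nhds ⟨mem_univ x, (h.clm B).not_crit.2 (by rwa [h.tg_clm])⟩] with y hy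
  have h2 := (h.clm B).not_crit.1 hy.2
  rw [h.tg_clm] at h2
  simpa using le_of_map_top h2

/-- the points of rank at least `m` are dense as soon as there is one -/
theorem HolV.dense_le [PreconnectedSpace M] (h : HolV A F) {m : ℕ}
    (hm : m ≤ finrank ℂ (Tg A F x)) : Dense {y | m ≤ finrank ℂ (Tg A F y)} := by
  obtain ⟨B, hB⟩ := exists_onto (X := Cn m) (T := Tg A F x) (by simpa using hm)
  have h1 := (sthM_crit isOpen_univ isPreconnected_univ (h.clm B).on
    ⟨x, mem_univ x, (h.clm B).not_crit.2 (by rwa [h.tg_clm])⟩).dense_compl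
  refine h1.mono fun y hy => ?_
  have h2 := (h.clm B).not_crit.1 hy
  rw [h.tg_clm] at h2
  simpa using le_of_map_top h2

/-- identity theorem for the rank -/
theorem HolV.le_of_ev [PreconnectedSpace M] (h : HolV A F) {s : ℕ}
    (hs : ∀ᶠ y in 𝓝 x, finrank ℂ (Tg A F y) ≤ s) (y : M) : finrank ℂ (Tg A F y) ≤ s := by
  by_contra hcon
  obtain ⟨z, h1, h2⟩ := (h.dense_le (m := s + 1) (x := y) (by omega)).inter_nhds_nonempty hs
  have h3 : s + 1 ≤ finrank ℂ (Tg A F z) := h1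
  have h4 : finrank ℂ (Tg A F z) ≤ s := h2
  omega

/-- the maximal rank -/
def rmax (A : Atl n M) (F : M → W) : ℕ := sSup (range fun x => finrank ℂ (Tg A F x))

theorem le_rmax (x : M) : finrank ℂ (Tg A F x) ≤ rmax A F :=
  le_csSup ⟨n, by rintro _ ⟨y, rfl⟩; exact finrank_tg_le F y⟩ ⟨x, rfl⟩

theorem exists_rmax [Nonempty M] (A : Atl n M) (F : M → W) :
    ∃ x, finrank ℂ (Tg A F x) = rmax A F :=
  Nat.sSup_mem (range_nonempty _) ⟨n, by rintro _ ⟨y, rfl⟩; exact finrank_tg_le F y⟩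

/-- the directions which are tangent to the image at all points of maximal rank -/
def D0 (A : Atl n M) (F : M → W) : Submodule ℂ W :=
  ⨅ x, ⨅ _ : finrank ℂ (Tg A F x) = rmax A F, Tg A F x

theorem mem_D0 {h : W} : h ∈ D0 A F ↔ ∀ x, finrank ℂ (Tg A F x) = rmax A F → h ∈ Tg A F x := by
  simp only [D0, Submodule.mem_iInf]

/-- a subspace tangent near one point of maximal rank is tangent at all such points -/
theorem HolV.le_D0 [PreconnectedSpace M] (h : HolV A F) {D : Submodule ℂ W}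
    (hD : ∀ᶠ y in 𝓝 x, D ≤ Tg A F y) : D ≤ D0 A F := by
  obtain ⟨P, hP, -⟩ := exists_proj D
  have h1 : ∀ y, finrank ℂ (Tg A (fun y => P (F y)) y) ≤ rmax A F - finrank ℂ D := by
    refine (h.clm P).le_of_ev (x := x) ?_
    filter_upwards [hD] with y hy
    have h2 := fr_map (P : W →ₗ[ℂ] W) (Tg A F y)
    rw [hP, inf_eq_right.2 hy] at h2
    have h3 := le_rmax (A := A) (F := F) y
    rw [h.tg_clm]
    omega
  intro w hw
  refine mem_D0.2 fun y hy => ?_
  have h2 := fr_map (P : W →ₗ[ℂ] W) (Tg A F y)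
  have h3 := h1 y
  have h4 := (Submodule.finrank_mono hD.self_of_nhds).trans (le_rmax (A := A) (F := F) x)
  rw [h.tg_clm] at h3
  rw [hP] at h2
  have h5 : Tg A F y ⊓ D = D := Submodule.eq_of_le_of_finrank_le inf_le_right (by omega)
  rw [← h5] at hw
  exact hw.1

theorem HolV.rank_proj [PreconnectedSpace M] [Nonempty M] (h : HolV A F) {P : W →L[ℂ] W}
    (hP : LinearMap.ker (P : W →ₗ[ℂ] W) = D0 A F) (y : M) :
    finrank ℂ (Tg A (fun y => P (F y)) y) ≤ rmax A F - finrank ℂ (D0 A F) := by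
  obtain ⟨x, hx⟩ := exists_rmax A F
  refine (h.clm P).le_of_ev (x := x) ?_ y
  filter_upwards [h.ev_le hx.ge] with y hy
  have h1 := le_antisymm (le_rmax y) hy
  have h2 := fr_map (P : W →ₗ[ℂ] W) (Tg A F y)
  rw [hP, inf_eq_right.2 fun w hw => mem_D0.1 hw y h1] at h2
  rw [h.tg_clm]
  omega

variable {K : Set M} {Λ : AddSubgroup W}

/-- **Ueno**: modulo `D0` the Gauss map has maximal rank `p = rmax - dim D0`. -/
theorem Per.gauss [PreconnectedSpace M] [Nonempty M] (Pe : Per F K Λ) (h : HolV A F) {R : ℝ}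
    (hR : ∀ w : W, ∃ l ∈ Λ, ‖w - l‖ ≤ R) {P : W →L[ℂ] W}
    (hP : LinearMap.ker (P : W →ₗ[ℂ] W) = D0 A F) (hPP : ∀ w, P (P w) = P w) {p : ℕ}
    (hp : p + finrank ℂ (D0 A F) = rmax A F) :
    ∃ (i : A.ι) (x : M) (m l : Fin p → W →L[ℂ] ℂ) (j : Fin p → Fin p) (z : Fin p → M → ℂ),
      x ∈ (A.e i).source ∧
      LinearIndependent ℂ (fun a => (m a).comp (dF A i (fun y => P (F y)) x)) ∧
      (∀ᶠ y in 𝓝 x, ∀ k, ∃ c : Fin p → ℂ, c (j k) = z k y ∧
        (l k).comp (dF A i (fun y => P (F y)) y) =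
          ∑ a, c a • (m a).comp (dF A i (fun y => P (F y)) y)) ∧
      (∀ k, AnalyticAt ℂ (fun w => z k ((A.e i).symm w)) (A.e i x)) ∧
      LinearIndependent ℂ fun k => dF A i (z k) x := by
  have := countable_of_fin Pe.fin
  have : CompleteSpace W := FiniteDimensional.complete ℂ W
  set r := rmax A F with hr
  obtain ⟨x₀, hx₀⟩ := exists_rmax A F
  have hfr : finrank ℂ (Cn r) = r := by simp
  obtain ⟨B, hB⟩ := exists_onto (X := Cn r) (T := Tg A F x₀) (by rw [hfr, hx₀])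
  have hrk : ∀ y, finrank ℂ (Tg A F y) ≤ finrank ℂ (Cn r) := fun y => by
    rw [hfr]; exact le_rmax y
  obtain ⟨ρ, hρ, g, σ, a1, a2, a2', a3, a4⟩ := h.graph B hrk hB
  set O := ball (B (F x₀)) ρ with hO
  have hBg : ∀ u ∈ O, ∀ a, B (fderiv ℂ g u a) = a := fun u hu a =>
    Core.B_fderiv isOpen_ball a1 (fun u hu => (a3 u hu).2.1) hu a
  have hσr : ∀ u ∈ O, finrank ℂ (Tg A F (σ u)) = r := by
    intro u hu
    refine le_antisymm (le_rmax _) ?_
    rw [← (a3 u hu).2.2]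
    exact hfr.ge.trans (le_rk (B := B) fun a => ⟨a, hBg u hu a⟩)
  have hD1 : ∀ w ∈ D0 A F, ∀ u ∈ O, fderiv ℂ g u (B w) = w := by
    intro w hw u hu
    have h1 := mem_D0.1 hw _ (hσr u hu)
    rw [← (a3 u hu).2.2] at h1
    obtain ⟨a, rfl⟩ := h1
    change fderiv ℂ g u (B (fderiv ℂ g u a)) = fderiv ℂ g u a
    rw [hBg u hu]
  -- the good neighbourhood of `x₀`
  have hFc := h.continuous
  obtain ⟨U, hU1, hUo, hUx⟩ := _root_.eventually_nhds_iff.1 ((a4.eventually_nhds.and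
    (h.ev_le hx₀.ge)).and ((B.continuous.comp hFc).continuousAt.eventually
      (ball_mem_nhds (B (F x₀)) hρ)))
  have hdF : ∀ y ∈ U, ∀ i, y ∈ (A.e i).source →
      ∀ v, dF A i F y v = fderiv ℂ g (B (F y)) (B (dF A i F y v)) := by
    intro y hy i hi v
    have h1 : HasFDerivAt g (fderiv ℂ g (B (F y))) (B (F ((A.e i).symm (A.e i y)))) := by
      rw [(A.e i).left_inv hi]; exact (a1 _ (hU1 y hy).2).differentiableAt.hasFDerivAt
    have h2 := HasFDerivAt.comp (f := fun z => B (F ((A.e i).symm z))) _ h1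
      (B.hasFDerivAt.comp _ (h.anAt hi).differentiableAt.hasFDerivAt)
    have h3 : ∀ᶠ z in 𝓝 (A.e i y), F ((A.e i).symm z) = g (B (F ((A.e i).symm z))) :=
      ((A.e i).continuousAt_symm ((A.e i).map_source hi)).eventually
        (by rw [(A.e i).left_inv hi]; exact (hU1 y hy).1.1)
    exact congrArg (fun L : Cn n →L[ℂ] W => L v) (h2.congr_of_eventuallyEq h3).fderiv
  have hTg : ∀ y ∈ U, Tg A F y = LinearMap.range (fderiv ℂ g (B (F y)) : Cn r →ₗ[ℂ] W) := by
    intro y hy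
    refine Submodule.eq_of_le_of_finrank_le ?_ ((LinearMap.finrank_range_le _).trans
      (hfr.le.trans (hU1 y hy).1.2))
    rintro _ ⟨v, rfl⟩
    exact ⟨_, (hdF y hy _ (A.cover y).choose_spec v).symm⟩
  have hD2 : ∀ w, (∀ u ∈ O, fderiv ℂ g u (B w) = w) → w ∈ D0 A F := by
    intro w hw
    refine h.le_D0 (x := x₀) (D := Submodule.span ℂ {w}) ?_ (Submodule.mem_span_singleton_self w)
    filter_upwards [hUo.mem_nhds hUx] with y hy
    rw [Submodule.span_singleton_le_iff_mem, hTg y hy]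
    exact ⟨_, hw _ (hU1 y hy).2⟩
  -- a point of maximal rank of the second derivative
  obtain ⟨δ, hδ, hδs⟩ : ∃ δ > 0, ball (B (F x₀)) δ ⊆ O ∩ σ ⁻¹' U :=
    Metric.mem_nhds_iff.1 (inter_mem (ball_mem_nhds _ hρ)
      ((a2'.continuousAt (ball_mem_nhds _ hρ)).preimage_mem_nhds (by rw [a2]; exact hUo.mem_nhds hUx)))
  obtain ⟨u₁, hu₁, hmax⟩ : ∃ u₁ ∈ ball (B (F x₀)) δ, ∀ u ∈ ball (B (F x₀)) δ,
      rk (Hs g u) ≤ rk (Hs g u₁) := by
    have hbdd : BddAbove ((fun u => rk (Hs g u)) '' ball (B (F x₀)) δ) :=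
      ⟨_, by rintro _ ⟨z, _, rfl⟩; exact LinearMap.finrank_range_le _⟩
    obtain ⟨u₁, hu₁, h1⟩ := Nat.sSup_mem (s := (fun u => rk (Hs g u)) '' ball (B (F x₀)) δ)
      ⟨_, _, mem_ball_self hδ, rfl⟩ hbdd
    exact ⟨u₁, hu₁, fun u hu => (le_csSup hbdd ⟨u, hu, rfl⟩).trans h1.ge⟩
  have hu₁O : u₁ ∈ O := (hδs hu₁).1
  have hcore : ∀ a, Hs g u₁ a = 0 → fderiv ℂ g u₁ a ∈ D0 A F := by
    intro a ha
    have h1 := Core.core (Pe.isClosed hFc) hR Pe.add_mem (Pe.sth_bad h B)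
      (fun p _ hp => Pe.locG h B hrk hp) isOpen_ball (convex_ball _ δ).isPreconnected
      (fun u hu => a1 u (hδs hu).1) (fun u hu => ⟨_, (a3 u (hδs hu).1).1.symm⟩)
      (fun u hu => (a3 u (hδs hu).1).2.1) hu₁ hmax ha
    have h2 : AnalyticOnNhd ℂ (fun u => fderiv ℂ g u a - fderiv ℂ g u₁ a) O := fun u hu =>
      (an_apply (an_fd (a1 u hu)) analyticAt_const).sub analyticAt_const
    have h3 := h2.eqOn_zero_of_preconnected_of_eventuallyEq_zero (convex_ball _ ρ).isPreconnected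
      hu₁O (by
        filter_upwards [isOpen_ball.mem_nhds hu₁] with u hu using sub_eq_zero.2 (h1 u hu))
    refine hD2 _ fun u hu => ?_
    rw [hBg u₁ hu₁O]
    exact sub_eq_zero.1 (h3 hu)
  set D' : Submodule ℂ (Cn r) := (D0 A F).map (B : W →ₗ[ℂ] Cn r) with hD'
  have hD'r : p + finrank ℂ D' = finrank ℂ (Cn r) := by
    have h1 := fr_map (B : W →ₗ[ℂ] Cn r) (D0 A F)
    have h2 : D0 A F ⊓ LinearMap.ker (B : W →ₗ[ℂ] Cn r) = ⊥ := by
      refine eq_bot_iff.2 fun w hw => ?_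
      have h3 : B w = 0 := hw.2
      have h4 := hD1 w hw.1 u₁ hu₁O
      rw [h3, map_zero] at h4
      exact h4.symm
    rw [h2, finrank_bot, ← hD'] at h1
    omega
  obtain ⟨Q, Rr, hQR, hQ⟩ := exists_quot D' hD'r
  have hPD : ∀ w, P w = 0 ↔ w ∈ D0 A F := fun w => by rw [← hP]; rfl
  have hQBP : ∀ w, Q (B (P w)) = Q (B w) := by
    intro w
    rw [← sub_eq_zero, ← map_sub, ← map_sub, hQ]
    exact ⟨_, (hPD _).1 (by rw [map_sub, hPP, sub_self]), rfl⟩
  have hsplit : ∀ u ∈ O, ∀ a, P (fderiv ℂ g u a) = P (fderiv ℂ g u (Rr (Q a))) := by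
    intro u hu a
    rw [← sub_eq_zero, ← map_sub, ← map_sub, hPD]
    obtain ⟨w, hw, e⟩ := (hQ (a - Rr (Q a))).1 (by rw [map_sub, hQR, sub_self])
    rw [← e]
    change fderiv ℂ g u (B w) ∈ _
    rwa [hD1 w hw u hu]
  -- the functionals
  set φ : (W →L[ℂ] ℂ) × Fin p → Cn r →L[ℂ] ℂ := fun q =>
    (q.1.comp P).comp ((Hs g u₁).flip (Rr (Pi.single q.2 1))) with hφ
  have hHs : ∀ b : Cn r, HasFDerivAt (fun u => fderiv ℂ g u b) ((Hs g u₁).flip b) u₁ := by
    intro b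
    have := (an_fd (a1 u₁ hu₁O)).differentiableAt.hasFDerivAt.clm_apply (hasFDerivAt_const b u₁)
    refine this.congr_fderiv ?_
    ext v
    simp [Hs]
  have hconst : ∀ {E : Type} [NormedAddCommGroup E] [NormedSpace ℂ E] (T : W →L[ℂ] E) (b : Cn r)
      (c : E), (∀ u ∈ O, T (fderiv ℂ g u b) = c) → ∀ a, T (Hs g u₁ a b) = 0 := by
    intro E _ _ T b c hc a
    have h1 := T.hasFDerivAt.comp u₁ (hHs b)
    have h2 : HasFDerivAt (T ∘ fun u => fderiv ℂ g u b) (0 : Cn r →L[ℂ] E) u₁ := by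
      refine (hasFDerivAt_const c u₁).congr_of_eventuallyEq ?_
      filter_upwards [isOpen_ball.mem_nhds hu₁O] with u hu using hc u hu
    exact congrArg (fun L : Cn r →L[ℂ] E => L a) (h1.unique h2)
  obtain ⟨c, hc⟩ := exists_indep φ D' hD'r (by
    intro a ha
    have h1 : ∀ j, Hs g u₁ a (Rr (Pi.single j 1)) = 0 := by
      intro j
      have h2 : P (Hs g u₁ a (Rr (Pi.single j 1))) = 0 :=
        SeparatingDual.eq_zero_of_forall_dual_eq_zero (R := ℂ) fun l => ha (l, j)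
      have h3 := hD1 _ ((hPD _).1 h2) u₁ hu₁O
      rw [hconst B _ _ (fun u hu => hBg u hu _), map_zero] at h3
      exact h3.symm
    have h4 : Hs g u₁ a = 0 := by
      ext b
      obtain ⟨w, hw, e⟩ := (hQ (b - Rr (Q b))).1 (by rw [map_sub, hQR, sub_self])
      have h5 : Hs g u₁ a (b - Rr (Q b)) = 0 := by
        rw [← e]
        exact hconst (ContinuousLinearMap.id ℂ W) (B w) w (fun u hu => hD1 w hw u hu) a
      have h6 : Hs g u₁ a (Rr (Q b)) = 0 := by
        rw [pi_eq_sum_univ' (Q b), map_sum, map_sum]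
        refine Finset.sum_eq_zero fun j _ => ?_
        rw [map_smul, map_smul, h1, smul_zero]
      rwa [map_sub, h6, sub_zero] at h5
    exact ⟨_, hcore a h4, hBg u₁ hu₁O a⟩)
  set x₁ := σ u₁ with hx₁
  have hx₁U : x₁ ∈ U := (hδs hu₁).2
  have hBx₁ : B (F x₁) = u₁ := by rw [hx₁, ← (a3 u₁ hu₁O).1, (a3 u₁ hu₁O).2.1]
  obtain ⟨i, hi⟩ := A.cover x₁
  have hsurj : Function.Surjective (B.comp (dF A i F x₁)) := by
    intro a
    have h1 : fderiv ℂ g u₁ a ∈ Tg A F x₁ := by rw [← (a3 u₁ hu₁O).2.2]; exact ⟨a, rfl⟩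
    rw [h.tg_eq hi] at h1
    obtain ⟨v, hv⟩ := h1
    refine ⟨v, ?_⟩
    change B (dF A i F x₁ v) = a
    rw [show dF A i F x₁ v = fderiv ℂ g u₁ a from hv, hBg u₁ hu₁O]
  have hBF : HasFDerivAt (fun w => B (F ((A.e i).symm w))) (B.comp (dF A i F x₁)) (A.e i x₁) :=
    B.hasFDerivAt.comp _ (h.anAt hi).differentiableAt.hasFDerivAt
  have hpt : B (F ((A.e i).symm (A.e i x₁))) = u₁ := by rw [(A.e i).left_inv hi, hBx₁]
  refine ⟨i, x₁, fun a => (ContinuousLinearMap.proj a).comp (Q.comp B), fun k => (c k).1,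
    fun k => (c k).2,
    fun k y => (c k).1 (P (fderiv ℂ g (B (F y)) (Rr (Pi.single (c k).2 1)))), hi, ?_, ?_, ?_, ?_⟩
  · have h1 := indep_comp (indep_proj p) (T := Q.comp (B.comp (dF A i F x₁))) (by
      intro s
      obtain ⟨v, hv⟩ := hsurj (Rr s)
      exact ⟨v, by rw [ContinuousLinearMap.comp_apply, hv, hQR]⟩)
    convert h1 using 2 with a
    ext v
    rw [h.dF_clm P hi]
    simp [hQBP]
  · filter_upwards [hUo.mem_nhds hx₁U, (A.e i).open_source.mem_nhds hi] with y hy hyi k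
    refine ⟨fun a => (c k).1 (P (fderiv ℂ g (B (F y)) (Rr (Pi.single a 1)))), rfl, ?_⟩
    ext v
    rw [h.dF_clm P hyi]
    simp only [ContinuousLinearMap.comp_apply, sum_apply,
      smul_apply, ContinuousLinearMap.proj_apply, hQBP, smul_eq_mul]
    conv_lhs => rw [hdF y hy i hyi v, hsplit (B (F y)) (hU1 y hy).2, pi_eq_sum_univ' (Q _)]
    simp only [map_sum, map_smul, smul_eq_mul]
    exact Finset.sum_congr rfl fun a _ => mul_comm _ _
  · intro k
    have h1 : AnalyticAt ℂ (fun w => fderiv ℂ g (B (F ((A.e i).symm w)))) (A.e i x₁) :=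
      AnalyticAt.comp (g := fderiv ℂ g) (by rw [hpt]; exact an_fd (a1 u₁ hu₁O))
        ((h.clm B).anAt hi)
    exact ((c k).1.analyticAt _).comp ((P.analyticAt _).comp (an_apply h1 analyticAt_const))
  · have h1 := indep_comp hc hsurj
    convert h1 using 2 with k
    have h2 : HasFDerivAt (fun u => fderiv ℂ g u (Rr (Pi.single (c k).2 1)))
        ((Hs g u₁).flip (Rr (Pi.single (c k).2 1))) (B (F ((A.e i).symm (A.e i x₁)))) := by
      rw [hpt]; exact hHs _
    exact (((c k).1.comp P).hasFDerivAt.comp _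
      (HasFDerivAt.comp (f := fun w => B (F ((A.e i).symm w))) _ h2 hBF)).fderiv

end Crest.Agent.X261.Uen
end
end

-- ▼ part X261/Uen/Wdg

/-!
X261 / Uen / Wdg (helper80): the holomorphic forms `d(l₁ ∘ F) ∧ … ∧ d(l_p ∘ F)`.
-/

set_option autoImplicit false
set_option linter.unusedSectionVars false

open Set Filter Topology Metric Module
open scoped Matrix

noncomputable section

namespace Crest.Agent.X261.Uen

open Crest.Agent.X261.Uen.Dev
open Crest.Agent.R275.Geo Crest.Agent.R275.Core144 Crest.Agent.R273.Fock_243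
open Crest.Agent.R273.HolF_578 (Om)
open Crest.Agent.X261.Bog (Par)

variable {n : ℕ} {M : Type} [TopologicalSpace M] {A : Atl n M}
  {W : Type} [NormedAddCommGroup W] [NormedSpace ℂ W] [FiniteDimensional ℂ W]

/-- coefficients of a covector -/
def cvD (n : ℕ) : Module.Dual ℂ (Cn n) →ₗ[ℂ] (Fin n → ℂ) where
  toFun L b := L (EuclideanSpace.single b 1)
  map_add' _ _ := rfl
  map_smul' _ _ := rfl

/-- coefficients of a continuous covector -/
def cv (n : ℕ) : (Cn n →L[ℂ] ℂ) →ₗ[ℂ] (Fin n → ℂ) := cvD n ∘ₗ ContinuousLinearMap.coeLM ℂ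

theorem cv_apply (L : Cn n →L[ℂ] ℂ) (b : Fin n) : cv n L b = L (EuclideanSpace.single b 1) := rfl

theorem cn_sum (v : Cn n) : v = ∑ b, v b • EuclideanSpace.single b (1 : ℂ) := by
  ext c
  simp [Pi.single_apply]

theorem cv_ker : LinearMap.ker (cv n) = ⊥ := by
  refine LinearMap.ker_eq_bot'.2 fun L hL => ?_
  ext v
  rw [cn_sum v, map_sum]
  refine Finset.sum_eq_zero fun b _ => ?_
  rw [map_smul, ← cv_apply, hL]
  simp

theorem cv_comp (L : Cn n →L[ℂ] ℂ) (T : Cn n →L[ℂ] Cn n) :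
    cv n (L.comp T) = (Matrix.of fun b a => T (EuclideanSpace.single a 1) b)ᵀ *ᵥ cv n L := by
  funext a
  rw [cv_apply, ContinuousLinearMap.comp_apply, cn_sum (T _), map_sum]
  simp [Matrix.mulVec, dotProduct, cv_apply]

variable {p : ℕ}

theorem an_wdg {E : Type} [NormedAddCommGroup E] [NormedSpace ℂ E] {z : E}
    {v : E → Fin p → Fin n → ℂ} (h : ∀ a b, AnalyticAt ℂ (fun w => v w a b) z) (T : FI n) :
    AnalyticAt ℂ (fun w => Top.wdg (v w) T) z := by
  unfold Top.wdg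
  by_cases hT : T.card = p
  · simp only [dif_pos hT, Matrix.det_apply', Matrix.of_apply]
    exact Finset.analyticAt_fun_sum _ fun σ _ =>
      analyticAt_const.mul (Finset.analyticAt_fun_prod _ fun k _ => h _ _)
  · simp only [dif_neg hT]
    exact analyticAt_const

theorem par_smul {ι : Type*} (u : ι → ℂ) (c : ℂ) : Par u (c • u) := fun S T => by
  simp only [Pi.smul_apply, smul_eq_mul]; ring

theorem par_wdg {T : Cn n →L[ℂ] W} (hT : finrank ℂ (LinearMap.range (T : Cn n →ₗ[ℂ] W)) ≤ p)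
    (l l' : Fin p → W →L[ℂ] ℂ) :
    Par (Top.wdg fun a => cv n ((l a).comp T)) (Top.wdg fun a => cv n ((l' a).comp T)) := by
  by_cases h : LinearIndependent ℂ fun a => cv n ((l a).comp T)
  · set S := (LinearMap.range (T : Cn n →ₗ[ℂ] W).dualMap).map (cvD n) with hS
    have h1 : ∀ m : W →L[ℂ] ℂ, cv n (m.comp T) ∈ S := fun m =>
      ⟨_, ⟨(m : W →ₗ[ℂ] ℂ), rfl⟩, rfl⟩
    have h2 : finrank ℂ S ≤ p := (Submodule.finrank_map_le _ _).trans
      ((LinearMap.finrank_range_dualMap_eq_finrank_range _).le.trans hT)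
    have h3 : Submodule.span ℂ (range fun a => cv n ((l a).comp T)) = S := by
      refine Submodule.eq_of_le_of_finrank_le (Submodule.span_le.2 ?_) ?_
      · rintro _ ⟨a, rfl⟩; exact h1 _
      · rw [finrank_span_eq_card h, Fintype.card_fin]; exact h2
    obtain ⟨c, hc⟩ := Plk.wdg_par (v := fun a => cv n ((l' a).comp T))
      (π := fun a => cv n ((l a).comp T)) fun k => by rw [h3]; exact h1 _
    rw [hc]
    exact par_smul _ _
  · rw [← Plk.twdg_ne_zero_iff, not_not] at h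
    rw [h]
    intro S T
    simp

theorem wdg_update (v : Fin p → Fin n → ℂ) (j : Fin p) (c : Fin p → ℂ) :
    Top.wdg (Function.update v j (∑ a, c a • v a)) = c j • Top.wdg v := by
  rw [Plk.wdg_eq, Plk.wdg_eq, AlternatingMap.map_update_sum, Finset.sum_eq_single j,
    AlternatingMap.map_update_smul, Function.update_eq_self, Matrix.smul_mulVec]
  · intro b _ hb
    rw [AlternatingMap.map_update_smul, AlternatingMap.map_update_self _ _ hb.symm, smul_zero]
  · simp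

open Classical in
/-- the form `d(l₁ ∘ F) ∧ … ∧ d(l_p ∘ F)` -/
def fm (A : Atl n M) (F : M → W) (l : Fin p → W →L[ℂ] ℂ) : A.ι → M → FI n → ℂ := fun i x =>
  if x ∈ (A.e i).source then Top.wdg fun a => cv n ((l a).comp (dF A i F x)) else 0

variable {F : M → W} {i : A.ι} {x : M}

theorem fm_of_mem (l : Fin p → W →L[ℂ] ℂ) (hx : x ∈ (A.e i).source) :
    fm A F l i x = Top.wdg fun a => cv n ((l a).comp (dF A i F x)) := if_pos hx

theorem fm_of_not (l : Fin p → W →L[ℂ] ℂ) (hx : x ∉ (A.e i).source) : fm A F l i x = 0 :=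
  if_neg hx

theorem HolV.fm_mem (h : HolV A F) (l : Fin p → W →L[ℂ] ℂ) : fm A F l ∈ Om A p := by
  have : CompleteSpace W := FiniteDimensional.complete ℂ W
  refine ⟨fun i T => ?_, fun i x hx => fm_of_not l hx, fun i x T hT => ?_, fun i j x hx => ?_⟩
  · have h1 : ∀ z ∈ (A.e i).target, AnalyticAt ℂ (fun w => Top.wdg (fun a => cv n ((l a).comp
        (fderiv ℂ (fun z => F ((A.e i).symm z)) w))) T) z := fun z hz =>
      an_wdg (fun a b => ((l a).analyticAt _).comp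
        (an_apply (an_fd (h.an i z hz)) analyticAt_const)) T
    refine DifferentiableOn.congr (fun z hz => (h1 z hz.1).differentiableAt.differentiableWithinAt)
      fun z hz => ?_
    change fm A F l i ((A.e i).symm z) T = _
    rw [fm_of_mem l ((A.e i).map_target hz.1), dF_symm F hz.1]
  · by_cases hx : x ∈ (A.e i).source
    · rw [fm_of_mem l hx]; exact Plk.deg_wdg _ T hT
    · rw [fm_of_not l hx]; rfl
  · rw [fm_of_mem l hx.1, fm_of_mem l hx.2, Plk.Gam_wdg, h.dF_chg hx.1 hx.2]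
    congr 1
    funext a
    rw [← ContinuousLinearMap.comp_assoc, cv_comp]
    rfl

theorem fm_ne {l : Fin p → W →L[ℂ] ℂ} (hx : x ∈ (A.e i).source)
    (h : LinearIndependent ℂ fun a => (l a).comp (dF A i F x)) : fm A F l i x ≠ 0 := by
  rw [fm_of_mem l hx, Plk.twdg_ne_zero_iff]
  exact h.map' (cv n) cv_ker

theorem fm_update {m : Fin p → W →L[ℂ] ℂ} {l : W →L[ℂ] ℂ} (hx : x ∈ (A.e i).source) (j : Fin p)
    {c : Fin p → ℂ} (h : l.comp (dF A i F x) = ∑ a, c a • (m a).comp (dF A i F x)) :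
    fm A F (Function.update m j l) i x = c j • fm A F m i x := by
  rw [fm_of_mem _ hx, fm_of_mem _ hx, ← wdg_update]
  congr 1
  funext a
  by_cases ha : a = j
  · subst ha
    rw [Function.update_self, Function.update_self, h, map_sum]
    simp only [map_smul]
  · rw [Function.update_of_ne ha, Function.update_of_ne ha]

/-- a holomorphic map with vanishing differential is constant -/
theorem HolV.const [PreconnectedSpace M] (h : HolV A F) (h0 : ∀ x, Tg A F x = ⊥) (x y : M) :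
    F x = F y := by
  refine IsLocallyConstant.apply_eq_of_preconnectedSpace
    ((IsLocallyConstant.iff_eventually_eq F).2 fun x => ?_) x y
  obtain ⟨i, hi⟩ := A.cover x
  obtain ⟨ρ, hρ, hb⟩ := Metric.isOpen_iff.1 (A.e i).open_target _ ((A.e i).map_source hi)
  refine ev_chart hi (P := fun y => F y = F x) ?_
  filter_upwards [ball_mem_nhds _ hρ] with z hz
  have h1 := isOpen_ball.is_const_of_fderiv_eq_zero (𝕜 := ℂ) (convex_ball _ ρ).isPreconnected
    ((h i).mono hb) (fun w hw => by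
      have h2 := h0 ((A.e i).symm w)
      rw [h.tg_eq ((A.e i).map_target (hb hw)), dF_symm F (hb hw), LinearMap.range_eq_bot] at h2
      exact ContinuousLinearMap.coe_injective h2) hz (mem_ball_self hρ)
  rwa [(A.e i).left_inv hi] at h1

/-- a spanning subgroup is cocompact -/
theorem exists_cocpt {Λ : AddSubgroup W} (h : Submodule.span ℝ (Λ : Set W) = ⊤) :
    ∃ R : ℝ, ∀ w : W, ∃ l ∈ Λ, ‖w - l‖ ≤ R := by
  have : FiniteDimensional ℝ W := FiniteDimensional.complexToReal W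
  set b := Basis.ofSpan h.ge with hb
  have := Module.Finite.finite_basis b
  have := Fintype.ofFinite (↑((linearIndepOn_empty ℝ id).extend (empty_subset (Λ : Set W))))
  refine ⟨_, fun w => ⟨ZSpan.floor b w, ?_, ZSpan.norm_fract_le b w⟩⟩
  have h1 : Submodule.span ℤ (range b) ≤ Λ.toIntSubmodule :=
    Submodule.span_le.2 (Basis.ofSpan_subset h.ge)
  exact h1 (ZSpan.floor b w).2

end Crest.Agent.X261.Uen
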